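import Crest.Agent.X262.Frm.Grd

/-! Row 262, package Frm (helper58).  Typ: the degree, and the Hodge types of complex forms with
respect to a complex structure `J`. -/

set_option autoImplicit false
set_option linter.unusedSectionVars false
set_option linter.unusedSimpArgs false

open scoped BigOperators
open Module Complex

noncomputable section

namespace Crest.Agent.X262.Frm

open Crest.Agent.R208.F Crest.Agent.R208.CW

section deg
variable {E F : Type*} [AddCommGroup E] [Module ℝ E] [AddCommGroup F] [Module ℝ F]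

/-- the component of degree `k` -/
def dg (k : ℕ) : CF E →ₗ[ℂ] CF E := prj 1 k 0

variable (E) in
/-- forms of degree `k` -/
def Dg (k : ℕ) : Submodule ℂ (CF E) := Ty 1 k 0

variable {P : Module.End ℂ (W E)} {p q j k : ℕ} {a b : CF E}

theorem prj_one_succ (p q : ℕ) (a : CF E) : prj 1 p (q + 1) a = 0 := by
  induction a using indC generalizing p q with
  | h0 z => rw [prj_algebraMap, if_neg (by omega)]
  | hadd x y hx hy => rw [map_add, hx, hy, add_zero]
  | hmul x l hx => rw [prj_ioC_mul, hx]; simp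

theorem dg_algebraMap (k : ℕ) (z : ℂ) :
    dg k (algebraMap ℂ (CF E) z) = if k = 0 then algebraMap ℂ (CF E) z else 0 := by
  rw [dg, prj_algebraMap]; simp

theorem dg_ioC_mul (k : ℕ) (l : W E) (a : CF E) :
    dg k (ioC l * a) = if k = 0 then 0 else ioC l * dg (k - 1) a := by
  rw [dg, prj_ioC_mul]; simp [dg]

theorem dg_mul (k : ℕ) (a b : CF E) :
    dg k (a * b) = ∑ x ∈ Finset.HasAntidiagonal.antidiagonal k, dg x.1 a * dg x.2 b := by
  rw [dg, prj_mul]; simp [dg]

theorem dg_mem (k : ℕ) (a : CF E) : dg k a ∈ Dg E k := prj_mem (mul_one 1) k 0 a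

theorem dg_of_mem (h : a ∈ Dg E j) (k : ℕ) : dg k a = if j = k then a else 0 := by
  rw [dg, prj_of_mem h]; simp

theorem dg_self (h : a ∈ Dg E k) : dg k a = a := prj_self h

theorem dg_ne (h : a ∈ Dg E j) (hne : j ≠ k) : dg k a = 0 := by rw [dg_of_mem h, if_neg hne]

theorem mem_Dg_iff : a ∈ Dg E k ↔ dg k a = a := mem_Ty_iff (mul_one 1)

theorem Dg_mul (ha : a ∈ Dg E j) (hb : b ∈ Dg E k) : a * b ∈ Dg E (j + k) := Ty_mul ha hb
theorem Dg_algebraMap (z : ℂ) : algebraMap ℂ (CF E) z ∈ Dg E 0 := Ty_algebraMap _ z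
theorem Dg_one : (1 : CF E) ∈ Dg E 0 := Ty_one _
theorem Dg_ioC (l : W E) : ioC l ∈ Dg E 1 := Ty_ioC_10 rfl
theorem Dg_pow (ha : a ∈ Dg E j) (k : ℕ) : a ^ k ∈ Dg E (k * j) := Ty_pow ha k
theorem Dg_congr (ha : a ∈ Dg E j) (h : j = k) : a ∈ Dg E k := h ▸ ha
theorem mem_Dg_zero : a ∈ Dg E 0 ↔ ∃ z : ℂ, a = algebraMap ℂ (CF E) z := mem_Ty_zero
theorem invC_of_Dg (h : a ∈ Dg E k) : invC a = (-1 : ℂ) ^ k • a := invC_of_mem h

theorem dg_mul_left (ha : a ∈ Dg E j) (k : ℕ) (b : CF E) : dg (j + k) (a * b) = a * dg k b :=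
  prj_mul_left ha k 0 b
theorem dg_mul_right (hb : b ∈ Dg E j) (k : ℕ) (a : CF E) : dg (k + j) (a * b) = dg k a * b :=
  prj_mul_right hb k 0 a
theorem dg_mul_left_of_lt (ha : a ∈ Dg E j) (h : k < j) (b : CF E) : dg k (a * b) = 0 :=
  prj_mul_left_of_lt ha (Or.inl h) b
theorem dg_mul_right_of_lt (hb : b ∈ Dg E j) (h : k < j) (a : CF E) : dg k (a * b) = 0 :=
  prj_mul_right_of_lt hb (Or.inl h) a

theorem dg_mapC (M : W F →ₗ[ℂ] W E) (k : ℕ) (c : CF F) : dg k (mapC M c) = mapC M (dg k c) :=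
  prj_mapC (P := 1) (Q := 1) (M := M) (fun _ => rfl) k 0 c
theorem dg_pbC (A : E →ₗ[ℝ] F) (k : ℕ) (c : CF F) : dg k (pbC A c) = pbC A (dg k c) := by
  rw [pbC_eq_mapC, pbC_eq_mapC, dg_mapC]
theorem Dg_pbC (A : E →ₗ[ℝ] F) {c : CF F} (h : c ∈ Dg F k) : pbC A c ∈ Dg E k := by
  rw [mem_Dg_iff, dg_pbC, dg_self h]
theorem dg_invC (k : ℕ) (c : CF E) : dg k (invC c) = invC (dg k c) := prj_invC _ _ _ _
theorem cjM_one : cjM (1 : Module.End ℂ (W E)) = 1 := by ext l v; simp [cjM_apply]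
theorem conj_dg (k : ℕ) (c : CF E) : Cx.conj (dg k c) = dg k (Cx.conj c) := by
  rw [dg, conj_prj, cjM_one]
theorem Dg_conj (h : a ∈ Dg E k) : Cx.conj a ∈ Dg E k := by rw [mem_Dg_iff, ← conj_dg, dg_self h]
theorem dg_ctr (φ : Module.Dual ℂ (W E)) (k : ℕ) (c : CF E) :
    dg k (ctr φ c) = ctr φ (dg (k + 1) c) := prj_ctr_10 (fun _ => rfl) k 0 c
theorem dg_iiC (v : E) (k : ℕ) (c : CF E) : dg k (iiC v c) = iiC v (dg (k + 1) c) := by
  rw [iiC_eq_ctr, iiC_eq_ctr, dg_ctr]
theorem Dg_iiC (v : E) (h : a ∈ Dg E (k + 1)) : iiC v a ∈ Dg E k := by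
  rw [mem_Dg_iff, dg_iiC, dg_self h]

theorem sum_dg {S : Finset ℕ} (hS : ∀ k ∉ S, dg k a = 0) : ∑ k ∈ S, dg k a = a := by
  have := sum_prj (P := 1) (a := a) (S := S.map ⟨fun k => (k, 0), fun _ _ h => (Prod.ext_iff.1 h).1⟩)
    fun x hx => by
      obtain ⟨k, q⟩ := x
      cases q with
      | zero => exact hS k fun h => hx (Finset.mem_map.2 ⟨k, h, rfl⟩)
      | succ q => exact prj_one_succ _ _ _
  rwa [Finset.sum_map] at this

theorem ext_dg (h : ∀ k, dg k a = dg k b) : a = b :=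
  ext_prj 1 fun p q => by
    cases q with
    | zero => exact h p
    | succ q => rw [prj_one_succ, prj_one_succ]

/-- components of two commuting bigradings commute; here with the degree -/
theorem dg_prj (P : Module.End ℂ (W E)) (k p q : ℕ) (a : CF E) :
    dg k (prj P p q a) = if p + q = k then prj P p q a else 0 := by
  refine dg_of_mem ?_ k
  induction a using indC generalizing p q with
  | h0 z =>
    rw [prj_algebraMap]
    split_ifs with h
    · rw [h.1, h.2]; exact Dg_algebraMap z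
    · exact zero_mem _
  | hadd x y hx hy => rw [map_add]; exact add_mem (hx p q) (hy p q)
  | hmul x l hx =>
    rw [prj_ioC_mul]
    refine add_mem ?_ ?_
    · split_ifs with h
      · exact zero_mem _
      · exact Dg_congr (Dg_mul (Dg_ioC _) (hx _ _)) (by omega)
    · split_ifs with h
      · exact zero_mem _
      · exact Dg_congr (Dg_mul (Dg_ioC _) (hx _ _)) (by omega)

theorem prj_mem_Dg (P : Module.End ℂ (W E)) (p q : ℕ) (a : CF E) : prj P p q a ∈ Dg E (p + q) := by
  rw [mem_Dg_iff, dg_prj, if_pos rfl]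

theorem Dg_of_Ty (h : a ∈ Ty P p q) : a ∈ Dg E (p + q) := prj_self h ▸ prj_mem_Dg P p q a

theorem dg_eq_sum (P : Module.End ℂ (W E)) (k : ℕ) (a : CF E) :
    dg k a = ∑ x ∈ Finset.HasAntidiagonal.antidiagonal k, prj P x.1 x.2 a := by
  classical
  set S := (dec P a).coeff.support ∪ Finset.HasAntidiagonal.antidiagonal k
  have h := sum_prj (P := P) (a := a) (S := S) fun x hx =>
    Finsupp.notMem_support_iff.1 fun h => hx (Finset.mem_union_left _ h)
  conv_lhs => rw [← h, map_sum]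
  simp only [dg_prj]
  rw [← Finset.sum_filter]
  refine Finset.sum_congr ?_ fun _ _ => rfl
  ext x
  simp only [S, Finset.mem_filter, Finset.mem_union, Finset.HasAntidiagonal.mem_antidiagonal]
  tauto

theorem prj_dg (hP : P * P = P) (k p q : ℕ) (a : CF E) :
    prj P p q (dg k a) = if p + q = k then prj P p q a else 0 := by
  rw [dg_eq_sum P, map_sum]
  simp only [prj_prj hP]
  split_ifs with h
  · rw [Finset.sum_eq_single (p, q)]
    · simp
    · intro x _ hx
      exact if_neg fun e => hx (Prod.ext e.1 e.2)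
    · intro hx; exact absurd (Finset.HasAntidiagonal.mem_antidiagonal.2 h) hx
  · refine Finset.sum_eq_zero fun x hx => if_neg fun e => h ?_
    rw [← e.1, ← e.2]; exact Finset.HasAntidiagonal.mem_antidiagonal.1 hx

theorem prj_of_Dg (hP : P * P = P) (h : a ∈ Dg E k) (hne : p + q ≠ k) : prj P p q a = 0 := by
  rw [← dg_self h, prj_dg hP, if_neg hne]

theorem evC_of_Dg (h : a ∈ Dg E j) (hne : j ≠ k) (v : Fin k → E) : evC E k v a = 0 := by
  induction k generalizing a j with
  | zero =>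
    have key : ∀ c : CF E, ∀ j, evC E 0 v (dg (j + 1) c) = 0 := by
      intro c j
      induction c using indC with
      | h0 z => rw [dg_algebraMap, if_neg (by omega), map_zero]
      | hadd x y hx hy => rw [map_add, map_add, hx, hy, add_zero]
      | hmul x l _ =>
        rw [dg_ioC_mul, if_neg (by omega)]
        generalize dg (j + 1 - 1) x = y
        have h1 := evC_pbC 0 (0 : E →ₗ[ℝ] E) (ioC l * y) v
        have h2 : pre (0 : E →ₗ[ℝ] E) l = 0 := by ext w; simp
        rw [map_mul, pbC_ioC, h2, map_zero, zero_mul, map_zero] at h1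
        rw [h1]; congr 2; exact Subsingleton.elim _ _
    obtain ⟨j, rfl⟩ := Nat.exists_eq_succ_of_ne_zero hne
    rw [← dg_self h]; exact key a j
  | succ k ih =>
    have hv : v = Matrix.vecCons (v 0) (Fin.tail v) := (Fin.cons_self_tail v).symm
    rw [hv, evC_cons]
    cases j with
    | zero =>
      obtain ⟨z, rfl⟩ := mem_Dg_zero.1 h
      rw [iiC_algebraMap, map_zero]
    | succ j => exact ih (Dg_iiC _ h) (by omega) _

variable [FiniteDimensional ℝ E]

theorem dg_eq_zero (h : finrank ℝ E < k) (a : CF E) : dg k a = 0 :=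
  prj_eq_zero_left (lt_of_le_of_lt ((Submodule.finrank_le _).trans finrank_W.le) h) _ _

theorem sum_dg_range (a : CF E) : ∑ k ∈ Finset.range (finrank ℝ E + 1), dg k a = a :=
  sum_dg fun k hk => dg_eq_zero (by simpa [Nat.succ_le_iff] using hk) a

theorem evC_dg (k : ℕ) (v : Fin k → E) (a : CF E) : evC E k v (dg k a) = evC E k v a := by
  classical
  have h := sum_dg (a := a) (S := insert k (Finset.range (finrank ℝ E + 1))) fun j hj =>
    dg_eq_zero (by
      have : j ∉ Finset.range (finrank ℝ E + 1) := fun h => hj (Finset.mem_insert_of_mem h)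
      simpa [Nat.succ_le_iff] using this) a
  conv_rhs => rw [← h, map_sum]
  rw [Finset.sum_eq_single k (fun j _ hj => evC_of_Dg (dg_mem j a) hj v)
    fun hk => absurd (Finset.mem_insert_self _ _) hk]

theorem eq_zero_of_Dg (h : a ∈ Dg E k) (hk : finrank ℝ E < k) : a = 0 := by
  rw [← dg_self h, dg_eq_zero hk]

end deg

section typ
variable {E F : Type*} [AddCommGroup E] [Module ℝ E] [AddCommGroup F] [Module ℝ F]

/-- the `(1,0)`-part of a covector with respect to `J` -/
def P10 (J : E →ₗ[ℝ] E) : Module.End ℂ (W E) := (2 : ℂ)⁻¹ • (1 - I • pre J)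

/-- `J` is a complex structure -/
def IsJ (J : E →ₗ[ℝ] E) : Prop := ∀ v, J (J v) = -v

/-- the form `a` has type `(p,q)` -/
abbrev IsType (J : E →ₗ[ℝ] E) (p q : ℕ) (a : CF E) : Prop := a ∈ Ty (P10 J) p q

variable {J : E →ₗ[ℝ] E} {J' : F →ₗ[ℝ] F} {p q : ℕ} {a : CF E}

theorem P10_apply (J : E →ₗ[ℝ] E) (l : W E) (v : E) :
    P10 J l v = (2 : ℂ)⁻¹ * (l v - I * l (J v)) := rfl

theorem P01_apply (J : E →ₗ[ℝ] E) (l : W E) (v : E) :
    (l - P10 J l) v = (2 : ℂ)⁻¹ * (l v + I * l (J v)) := by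
  rw [LinearMap.sub_apply, P10_apply]; ring

theorem P10_J (hJ : IsJ J) (l : W E) (v : E) : P10 J l (J v) = I * P10 J l v := by
  rw [P10_apply, P10_apply, hJ, map_neg]
  linear_combination ((2 : ℂ)⁻¹ * l (J v)) * I_mul_I

theorem P10_eq_self {l : W E} (h : ∀ v, l (J v) = I * l v) : P10 J l = l := by
  ext v
  rw [P10_apply, h]
  linear_combination (-(2 : ℂ)⁻¹ * l v) * I_mul_I

theorem P10_eq_zero {l : W E} (h : ∀ v, l (J v) = -(I * l v)) : P10 J l = 0 := by
  ext v
  rw [P10_apply, h, LinearMap.zero_apply]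
  linear_combination ((2 : ℂ)⁻¹ * l v) * I_mul_I

theorem IsJ.idem (hJ : IsJ J) : P10 J * P10 J = P10 J :=
  LinearMap.ext fun l => P10_eq_self (P10_J hJ l)

theorem cjM_P10 (J : E →ₗ[ℝ] E) : cjM (P10 J) = 1 - P10 J := by
  ext l v
  rw [cjM_apply, cjW_apply, P10_apply]
  change _ = (l - P10 J l) v
  rw [P01_apply]
  simp [map_ofNat]

theorem conj_prjJ (J : E →ₗ[ℝ] E) (p q : ℕ) (c : CF E) :
    Cx.conj (prj (P10 J) p q c) = prj (P10 J) q p (Cx.conj c) := by
  rw [conj_prj, cjM_P10, prj_swap]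

theorem IsType.conj (hJ : IsJ J) (h : IsType J p q a) : IsType J q p (Cx.conj a) := by
  rw [IsType, mem_Ty_iff hJ.idem, ← conj_prjJ, prj_self h]

theorem P10_pre {A : E →ₗ[ℝ] F} (h : ∀ v, A (J v) = J' (A v)) (l : W F) :
    P10 J (pre A l) = pre A (P10 J' l) := by
  ext v; simp [P10_apply, h]

/-- pull-back by a complex linear map respects the types -/
theorem prj_pbC {A : E →ₗ[ℝ] F} (h : ∀ v, A (J v) = J' (A v)) (p q : ℕ) (c : CF F) :
    prj (P10 J) p q (pbC A c) = pbC A (prj (P10 J') p q c) := by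
  rw [pbC_eq_mapC, pbC_eq_mapC]; exact prj_mapC (P10_pre h) p q c

theorem IsType.pbC {A : E →ₗ[ℝ] F} (h : ∀ v, A (J v) = J' (A v)) {c : CF F}
    (hc : IsType J' p q c) : IsType J p q (pbC A c) := by
  rw [pbC_eq_mapC]; exact Ty_mapC (P10_pre h) hc

/-- the action of a complex scalar on a form of type `(p,q)` -/
theorem IsType.pbC_scal (h : IsType J p q a) (c : ℂ) :
    R208.CW.pbC (c.re • LinearMap.id + c.im • J) a = (c ^ p * (starRingEnd ℂ) c ^ q) • a := by
  rw [← mapC_scale_of_mem h, pbC_eq_mapC]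
  congr 2
  ext l v
  simp only [pre_apply, LinearMap.add_apply, LinearMap.smul_apply, LinearMap.id_apply, map_add,
    map_smul, LinearMap.sub_apply, Module.End.one_apply, P10_apply, smul_eq_mul, real_smul]
  have h1 : (starRingEnd ℂ) c = c.re - c.im * I := by apply Complex.ext <;> simp
  rw [h1]
  nth_rewrite 3 [← re_add_im c]
  linear_combination (c.im * l (J v)) * I_mul_I

/-- the `(1,0)`-part `(v - i J v)/2` of a real vector -/
def v10 (J : E →ₗ[ℝ] E) (v : E) : Module.Dual ℂ (W E) := evW v ∘ₗ P10 J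
/-- the `(0,1)`-part `(v + i J v)/2` of a real vector -/
def v01 (J : E →ₗ[ℝ] E) (v : E) : Module.Dual ℂ (W E) := evW v ∘ₗ (1 - P10 J)

theorem v10_apply (J : E →ₗ[ℝ] E) (v : E) (l : W E) : v10 J v l = P10 J l v := rfl
theorem v01_apply (J : E →ₗ[ℝ] E) (v : E) (l : W E) : v01 J v l = (l - P10 J l) v := rfl

theorem v10_add_v01 (J : E →ₗ[ℝ] E) (v : E) : v10 J v + v01 J v = evW v := by
  ext l; simp [v10_apply, v01_apply]

theorem ctr_v10 (J : E →ₗ[ℝ] E) (v : E) (c : CF E) :
    ctr (v10 J v) c = (2 : ℂ)⁻¹ • (iiC v c - I • iiC (J v) c) := by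
  have : v10 J v = (2 : ℂ)⁻¹ • (evW v - I • evW (J v)) := by ext l; rfl
  rw [this, iiC_eq_ctr, iiC_eq_ctr]; simp

theorem ctr_v01 (J : E →ₗ[ℝ] E) (v : E) (c : CF E) :
    ctr (v01 J v) c = (2 : ℂ)⁻¹ • (iiC v c + I • iiC (J v) c) := by
  have : v01 J v = (2 : ℂ)⁻¹ • (evW v + I • evW (J v)) := by
    ext l; rw [v01_apply, P01_apply]; rfl
  rw [this, iiC_eq_ctr, iiC_eq_ctr]; simp

theorem prj_ctr_v10 (hJ : IsJ J) (v : E) (p q : ℕ) (c : CF E) :
    prj (P10 J) p q (ctr (v10 J v) c) = ctr (v10 J v) (prj (P10 J) (p + 1) q c) :=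
  prj_ctr_10 (fun l => by rw [v10_apply, v10_apply, idem_apply hJ.idem]) p q c

theorem prj_ctr_v01 (hJ : IsJ J) (v : E) (p q : ℕ) (c : CF E) :
    prj (P10 J) p q (ctr (v01 J v) c) = ctr (v01 J v) (prj (P10 J) p (q + 1) c) :=
  prj_ctr_01 (fun l => by rw [v01_apply, idem_apply hJ.idem, sub_self]; rfl) p q c

variable [FiniteDimensional ℝ E]

theorem finrank_range_cjM (P : Module.End ℂ (W E)) :
    finrank ℂ (LinearMap.range (cjM P)) = finrank ℂ (LinearMap.range P) := by
  have key : ∀ Q : Module.End ℂ (W E),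
      finrank ℝ (LinearMap.range (cjM Q)) ≤ finrank ℝ (LinearMap.range Q) := by
    intro Q
    let f : LinearMap.range (cjM Q) →ₗ[ℝ] LinearMap.range Q :=
      { toFun := fun x => ⟨cjW x.1, by obtain ⟨_, l, rfl⟩ := x; exact ⟨cjW l, by simp [cjM_apply]⟩⟩
        map_add' := fun x y => Subtype.ext (cjW_add _ _)
        map_smul' := fun r x => Subtype.ext (by ext v; simp) }
    refine LinearMap.finrank_le_finrank_of_injective (f := f) fun x y h => Subtype.ext ?_
    have := congrArg (fun z => cjW z.1) h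
    simpa [f] using this
  have h1 := key P
  have h2 := key (cjM P)
  have h3 : cjM (cjM P) = P := by ext l v; simp [cjM_apply]
  rw [h3] at h2
  have e1 := Module.finrank_mul_finrank ℝ ℂ (LinearMap.range (cjM P))
  have e2 := Module.finrank_mul_finrank ℝ ℂ (LinearMap.range P)
  rw [finrank_real_complex] at e1 e2
  omega

theorem finrank_range_P10 (hJ : IsJ J) : 2 * finrank ℂ (LinearMap.range (P10 J)) = finrank ℝ E := by
  have h1 := finrank_range_cjM (P10 J)
  rw [cjM_P10] at h1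
  have h2 : LinearMap.range (1 - P10 J) = LinearMap.ker (P10 J) := by
    ext l
    refine ⟨?_, fun h => ⟨l, by rw [LinearMap.sub_apply, LinearMap.mem_ker.1 h, sub_zero]; rfl⟩⟩
    rintro ⟨m, rfl⟩
    rw [LinearMap.mem_ker, LinearMap.sub_apply, map_sub, idem_apply hJ.idem]
    exact sub_self _
  have h3 := LinearMap.finrank_range_add_finrank_ker (P10 J)
  rw [← h2, h1, finrank_W] at h3
  omega

theorem prjJ_eq_zero (hJ : IsJ J) (h : finrank ℝ E < 2 * p ∨ finrank ℝ E < 2 * q) (c : CF E) :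
    prj (P10 J) p q c = 0 := by
  have h1 := finrank_range_P10 hJ
  rcases h with h | h
  · exact prj_eq_zero_left (by omega) _ _
  · refine prj_eq_zero_right ?_ _ _
    rw [← cjM_P10, finrank_range_cjM]; omega

theorem IsType.eq_zero (hJ : IsJ J) (ha : IsType J p q a)
    (h : finrank ℝ E < 2 * p ∨ finrank ℝ E < 2 * q) : a = 0 := by
  rw [← prj_self ha, prjJ_eq_zero hJ h]

/-- top degree forms have type `(n,n)` -/
theorem dg_top (hJ : IsJ J) {n : ℕ} (hn : finrank ℝ E = 2 * n) (c : CF E) :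
    dg (2 * n) c = prj (P10 J) n n c := by
  rw [dg_eq_sum (P10 J), Finset.sum_eq_single (n, n)]
  · intro x hx hne
    have := Finset.HasAntidiagonal.mem_antidiagonal.1 hx
    refine prjJ_eq_zero hJ ?_ c
    by_contra hh
    exact hne (Prod.ext (by simp only; omega) (by simp only; omega))
  · intro hx; exact absurd (Finset.HasAntidiagonal.mem_antidiagonal.2 (by simp only; omega)) hx

end typ

section cx
variable {E F : Type*} [AddCommGroup E] [Module ℝ E] [Module ℂ E] [IsScalarTower ℝ ℂ E]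
  [AddCommGroup F] [Module ℝ F] [Module ℂ F] [IsScalarTower ℝ ℂ F]

variable (E) in
/-- the complex structure of a complex vector space -/
def Jc : E →ₗ[ℝ] E := (LinearMap.lsmul ℂ E I).restrictScalars ℝ

@[simp] theorem Jc_apply (v : E) : Jc E v = I • v := rfl

variable (E) in
theorem isJ_Jc : IsJ (Jc E) := fun v => by simp [smul_smul]

theorem Jc_comm (A : E →ₗ[ℂ] F) (v : E) : A.restrictScalars ℝ (Jc E v) = Jc F (A.restrictScalars ℝ v) := by
  simp

theorem P10_linear (l : E →ₗ[ℂ] ℂ) : P10 (Jc E) (l.restrictScalars ℝ) = l.restrictScalars ℝ :=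
  P10_eq_self fun v => by simp

theorem P10_antilinear (l : E →ₗ[ℂ] ℂ) : P10 (Jc E) (cjW (l.restrictScalars ℝ)) = 0 :=
  P10_eq_zero fun v => by simp

end cx

end Crest.Agent.X262.Frm
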