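import Crest.Agent.X262.Frm.Nrm

/-! Row 262, package Frm (helper58).  Dol: partial exterior derivatives `dP P`, in particular
`del` and `dbar` on a complex vector space. -/

set_option autoImplicit false
set_option linter.unusedSectionVars false
set_option linter.unusedSimpArgs false

open scoped BigOperators ContDiff Topology
open Module Complex

noncomputable section

namespace Crest.Agent.X262.Frm

open Crest.Agent.R208.F Crest.Agent.R208.CW

section dP
variable {E F : Type*} [NormedAddCommGroup E] [NormedSpace ℝ E] [FiniteDimensional ℝ E]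
  [NormedAddCommGroup F] [NormedSpace ℝ F] [FiniteDimensional ℝ F]

/-- `T ↦ ∑ P(eᵢ*) ∧ T eᵢ` -/
def wP (P : Module.End ℂ (W E)) : (E →L[ℝ] CF E) →L[ℝ] CF E :=
  LinearMap.toContinuousLinearMap
    { toFun := fun T => ∑ i, ioC (P (ofD ((Module.finBasis ℝ E).coord i))) * T (Module.finBasis ℝ E i)
      map_add' := fun S T => by
        simp only [add_apply, mul_add, Finset.sum_add_distrib]
      map_smul' := fun r T => by
        simp only [smul_apply, mul_smul_comm, Finset.smul_sum, RingHom.id_apply] }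

theorem wP_apply (P : Module.End ℂ (W E)) (T : E →L[ℝ] CF E) :
    wP P T = ∑ i, ioC (P (ofD ((Module.finBasis ℝ E).coord i))) * T (Module.finBasis ℝ E i) := rfl

theorem W_sum {ι : Type*} [Fintype ι] (b : Basis ι ℝ E) (l : W E) :
    ∑ i, l (b i) • ofD (b.coord i) = l := by
  classical
  refine b.ext fun j => ?_
  simp [LinearMap.sum_apply, Finsupp.single_apply, apply_ite]

theorem wP_of_rank_one (P : Module.End ℂ (W E)) {T : E →L[ℝ] CF E} {l : W E} {c : CF E}
    (h : ∀ v, T v = l v • c) : wP P T = ioC (P l) * c := by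
  rw [wP_apply]
  conv_rhs => rw [← W_sum (Module.finBasis ℝ E) l]
  simp only [h, map_sum, map_smul, Finset.sum_mul, mul_smul_comm, smul_mul_assoc]

theorem wP_basis {ι : Type*} [Fintype ι] (b : Basis ι ℝ E) (P : Module.End ℂ (W E))
    (T : E →L[ℝ] CF E) : wP P T = ∑ i, ioC (P (ofD (b.coord i))) * T (b i) := by
  have : T = ∑ i, (LinearMap.toContinuousLinearMap (b.coord i)).smulRight (T (b i)) := by
    ext v : 1
    conv_lhs => rw [← b.sum_repr v, map_sum]
    simp only [map_smul]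
    simp
  conv_lhs => rw [this, map_sum]
  exact Finset.sum_congr rfl fun i _ => wP_of_rank_one P fun v => by simp [rsmul_eq]

theorem wP_add (P Q : Module.End ℂ (W E)) (T : E →L[ℝ] CF E) : wP (P + Q) T = wP P T + wP Q T := by
  simp only [wP_apply, LinearMap.add_apply, map_add, add_mul, Finset.sum_add_distrib]

theorem wP_sub (P Q : Module.End ℂ (W E)) (T : E →L[ℝ] CF E) : wP (P - Q) T = wP P T - wP Q T := by
  simp only [wP_apply, LinearMap.sub_apply, map_sub, sub_mul, Finset.sum_sub_distrib]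

theorem wP_csmul (P : Module.End ℂ (W E)) (z : ℂ) (T : E →L[ℝ] CF E) : wP P (z • T) = z • wP P T := by
  simp only [wP_apply, smul_apply, mul_smul_comm, Finset.smul_sum]

/-- partial exterior derivative -/
def dP (P : Module.End ℂ (W E)) (om : E → CF E) (x : E) : CF E := wP P (fderiv ℝ om x)

variable {P Q : Module.End ℂ (W E)} {om η : E → CF E} {x : E} {p q : ℕ}

theorem dP_basis {ι : Type*} [Fintype ι] (b : Basis ι ℝ E) (P : Module.End ℂ (W E))
    (om : E → CF E) (x : E) : dP P om x = ∑ i, ioC (P (ofD (b.coord i))) * fderiv ℝ om x (b i) :=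
  wP_basis b P _

theorem dP_one (h : DifferentiableAt ℝ om x) : dP 1 om x = dC om x :=
  (dC_eq_sum (Module.finBasis ℝ E) h).symm

theorem dC_of_hasFDerivAt {T : E →L[ℝ] CF E} (h : HasFDerivAt om T x) : dC om x = wP 1 T := by
  rw [← dP_one h.differentiableAt, dP, h.fderiv]

theorem dP_of_hasFDerivAt (P : Module.End ℂ (W E)) {T : E →L[ℝ] CF E} (h : HasFDerivAt om T x) :
    dP P om x = wP P T := by rw [dP, h.fderiv]

theorem dP_add_compl (P : Module.End ℂ (W E)) (h : DifferentiableAt ℝ om x) :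
    dP P om x + dP (1 - P) om x = dC om x := by
  rw [← dP_one h, dP, dP, dP, ← wP_add, add_sub_cancel]

theorem dP_congr (h : om =ᶠ[𝓝 x] η) : dP P om x = dP P η x := by rw [dP, dP, h.fderiv_eq]

theorem dP_congr_nhds (h : om =ᶠ[𝓝 x] η) : dP P om =ᶠ[𝓝 x] dP P η := by
  filter_upwards [h.eventuallyEq_nhds] with y hy using dP_congr hy

theorem dP_const (c : CF E) (x : E) : dP P (fun _ => c) x = 0 := by
  rw [dP_of_hasFDerivAt P (hasFDerivAt_const c x), map_zero]

theorem dP_add (h : DifferentiableAt ℝ om x) (h' : DifferentiableAt ℝ η x) :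
    dP P (fun y => om y + η y) x = dP P om x + dP P η x := by
  rw [dP_of_hasFDerivAt P (h.hasFDerivAt.fun_add h'.hasFDerivAt), map_add]; rfl

theorem dP_sub (h : DifferentiableAt ℝ om x) (h' : DifferentiableAt ℝ η x) :
    dP P (fun y => om y - η y) x = dP P om x - dP P η x := by
  rw [dP_of_hasFDerivAt P (h.hasFDerivAt.fun_sub h'.hasFDerivAt), map_sub]; rfl

theorem dP_neg : dP P (fun y => - om y) x = - dP P om x := by
  have : (fun y => - om y) = -om := rfl
  rw [dP, dP, this, fderiv_neg, map_neg]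

theorem dP_sum {ι : Type*} (s : Finset ι) {om : ι → E → CF E}
    (h : ∀ i ∈ s, DifferentiableAt ℝ (om i) x) :
    dP P (fun y => ∑ i ∈ s, om i y) x = ∑ i ∈ s, dP P (om i) x := by
  rw [dP_of_hasFDerivAt P (HasFDerivAt.fun_sum fun i hi => (h i hi).hasFDerivAt), map_sum]; rfl

theorem dP_csmul (z : ℂ) (h : DifferentiableAt ℝ om x) : dP P (fun y => z • om y) x = z • dP P om x := by
  rw [dP_of_hasFDerivAt P (h.hasFDerivAt.fun_const_smul z), wP_csmul]; rfl

/-- graded Leibniz rule -/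
theorem dP_mul (h : DifferentiableAt ℝ om x) (h' : DifferentiableAt ℝ η x) :
    dP P (fun y => om y * η y) x = dP P om x * η x + invC (om x) * dP P η x := by
  rw [dP_of_hasFDerivAt P (h.hasFDerivAt.fun_mul' h'.hasFDerivAt), dP, dP, wP_apply, wP_apply, wP_apply,
    Finset.sum_mul, Finset.mul_sum, ← Finset.sum_add_distrib]
  refine Finset.sum_congr rfl fun i _ => ?_
  simp only [add_apply, smul_apply, smul_eq_mul,
    MulOpposite.smul_eq_mul_unop, MulOpposite.unop_op, mul_add]
  rw [← mul_assoc, ioC_mul, add_comm, mul_assoc, mul_assoc]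

theorem dP_algebraMap {g : E → ℂ} (hg : DifferentiableAt ℝ g x) :
    dP P (fun y => algebraMap ℂ (CF E) (g y)) x
      = ioC (P ((fderiv ℝ g x : E →L[ℝ] ℂ) : E →ₗ[ℝ] ℂ)) := by
  simp only [Algebra.algebraMap_eq_smul_one]
  rw [dP_of_hasFDerivAt P (hg.hasFDerivAt.smul_const (1 : CF E)),
    wP_of_rank_one P (l := ((fderiv ℝ g x : E →L[ℝ] ℂ) : E →ₗ[ℝ] ℂ)) (c := 1) fun v => rfl, mul_one]

theorem differentiableAt_algebraMap {G : Type*} [NormedAddCommGroup G] [NormedSpace ℝ G] {g : G → ℂ}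
    {x : G} (hg : DifferentiableAt ℝ g x) :
    DifferentiableAt ℝ (fun y => algebraMap ℂ (CF E) (g y)) x := by
  simp only [Algebra.algebraMap_eq_smul_one]
  exact hg.smul_const _

theorem dP_smul {g : E → ℂ} (hg : DifferentiableAt ℝ g x) (h : DifferentiableAt ℝ om x) :
    dP P (fun y => g y • om y) x
      = ioC (P ((fderiv ℝ g x : E →L[ℝ] ℂ) : E →ₗ[ℝ] ℂ)) * om x + g x • dP P om x := by
  simp only [Algebra.smul_def]
  rw [dP_mul (differentiableAt_algebraMap hg) h, dP_algebraMap hg, invC_algebraMap]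

theorem dC_algebraMap {g : E → ℂ} (hg : DifferentiableAt ℝ g x) :
    dC (fun y => algebraMap ℂ (CF E) (g y)) x = ioC ((fderiv ℝ g x : E →L[ℝ] ℂ) : E →ₗ[ℝ] ℂ) := by
  rw [← dP_one (differentiableAt_algebraMap hg), dP_algebraMap hg]; rfl

theorem dC_smul {g : E → ℂ} (hg : DifferentiableAt ℝ g x) (h : DifferentiableAt ℝ om x) :
    dC (fun y => g y • om y) x
      = ioC ((fderiv ℝ g x : E →L[ℝ] ℂ) : E →ₗ[ℝ] ℂ) * om x + g x • dC om x := by
  rw [← dP_one (hg.fun_smul h), dP_smul hg h, dP_one h]; rfl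

theorem dC_mul' (h : DifferentiableAt ℝ om x) (h' : DifferentiableAt ℝ η x) :
    dC (fun y => om y * η y) x = dC om x * η x + invC (om x) * dC η x := by
  rw [← dP_one (h.fun_mul h'), dP_mul h h', dP_one h, dP_one h']

theorem contDiffAt_dP {k m : WithTop ℕ∞} (h : ContDiffAt ℝ k om x) (hm : m + 1 ≤ k) :
    ContDiffAt ℝ m (dP P om) x := (wP P).contDiff.contDiffAt.comp x (h.fderiv_right hm)

theorem dP_dP_eq (P Q : Module.End ℂ (W E)) (h : ContDiffAt ℝ 2 om x) :
    dP P (dP Q om) x = ∑ i, ∑ j, ioC (P (ofD ((finBasis ℝ E).coord i))) *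
      (ioC (Q (ofD ((finBasis ℝ E).coord j))) *
        fderiv ℝ (fderiv ℝ om) x (finBasis ℝ E i) (finBasis ℝ E j)) := by
  have h1 : HasFDerivAt (fderiv ℝ om) (fderiv ℝ (fderiv ℝ om) x) x :=
    ((h.fderiv_right (m := 1) (by norm_num)).differentiableAt (by norm_num)).hasFDerivAt
  have h2 : HasFDerivAt (dP Q om) ((wP Q).comp (fderiv ℝ (fderiv ℝ om) x)) x :=
    (wP Q).hasFDerivAt.comp x h1
  rw [dP_of_hasFDerivAt P h2, wP_apply]
  simp only [ContinuousLinearMap.comp_apply, wP_apply, Finset.mul_sum]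

theorem dP_dP_anti (P Q : Module.End ℂ (W E)) (h : ContDiffAt ℝ 2 om x) :
    dP P (dP Q om) x = - dP Q (dP P om) x := by
  rw [dP_dP_eq P Q h, dP_dP_eq Q P h, Finset.sum_comm, ← Finset.sum_neg_distrib]
  refine Finset.sum_congr rfl fun i _ => ?_
  rw [← Finset.sum_neg_distrib]
  refine Finset.sum_congr rfl fun j _ => ?_
  rw [← mul_assoc, ← mul_assoc, ioC_anti, neg_mul, fderiv_symm h]

theorem dP_dP (P : Module.End ℂ (W E)) (h : ContDiffAt ℝ 2 om x) : dP P (dP P om) x = 0 := by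
  have h1 := dP_dP_anti P P h
  have h2 : (2 : ℂ) • dP P (dP P om) x = 0 := by
    rw [two_smul]; nth_rewrite 1 [h1]; exact neg_add_cancel _
  exact (smul_eq_zero.1 h2).resolve_left two_ne_zero

theorem dP_invC (h : DifferentiableAt ℝ om x) :
    dP P (fun y => invC (om y)) x = - invC (dP P om x) := by
  rw [dP, dP, wP_apply, wP_apply, map_sum, ← Finset.sum_neg_distrib]
  refine Finset.sum_congr rfl fun i _ => ?_
  rw [map_mul, invC_ioC, neg_mul, neg_neg]
  exact congrArg _ (fderiv_lin invA.toLinearMap h _)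

theorem conj_dP (h : DifferentiableAt ℝ om x) :
    Cx.conj (dP P om x) = dP (cjM P) (fun y => Cx.conj (om y)) x := by
  have h1 : HasFDerivAt (fun y => Cx.conj (om y)) ((conjL E).comp (fderiv ℝ om x)) x :=
    (conjL E).hasFDerivAt.comp x h.hasFDerivAt
  rw [dP_of_hasFDerivAt _ h1, dP, wP_apply, wP_apply, map_sum]
  refine Finset.sum_congr rfl fun i _ => ?_
  rw [map_mul, conj_ioC, cjM_apply, cjW_ofD]
  rfl

theorem prj_dP_left (hP : P * P = P) (h : DifferentiableAt ℝ om x) (p q : ℕ) :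
    prj P (p + 1) q (dP P om x) = dP P (fun y => prj P p q (om y)) x := by
  rw [dP, dP, wP_apply, wP_apply, map_sum]
  refine Finset.sum_congr rfl fun i _ => ?_
  have := prj_mul_left (Ty_ioC_10 (idem_apply hP (ofD ((finBasis ℝ E).coord i)))) p q
    (fderiv ℝ om x (finBasis ℝ E i))
  rw [add_comm 1, zero_add] at this
  rw [this, fderiv_lin _ h]

theorem prj_dP_left_zero (hP : P * P = P) (om : E → CF E) (x : E) (q : ℕ) :
    prj P 0 q (dP P om x) = 0 := by
  rw [dP, wP_apply, map_sum]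
  exact Finset.sum_eq_zero fun i _ =>
    prj_mul_left_of_lt (Ty_ioC_10 (idem_apply hP _)) (Or.inl one_pos) _

theorem idem_compl (hP : P * P = P) : (1 - P) * (1 - P) = 1 - P := by
  rw [mul_sub, sub_mul, sub_mul, hP]; simp

theorem prj_dP_right (hP : P * P = P) (h : DifferentiableAt ℝ om x) (p q : ℕ) :
    prj P p (q + 1) (dP (1 - P) om x) = dP (1 - P) (fun y => prj P p q (om y)) x := by
  simp only [← prj_swap P _ p]
  exact prj_dP_left (idem_compl hP) h q p

theorem prj_dP_right_zero (hP : P * P = P) (om : E → CF E) (x : E) (p : ℕ) :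
    prj P p 0 (dP (1 - P) om x) = 0 := by
  rw [← prj_swap P]; exact prj_dP_left_zero (idem_compl hP) om x p

theorem dg_dP (P : Module.End ℂ (W E)) (h : DifferentiableAt ℝ om x) (k : ℕ) :
    dg (k + 1) (dP P om x) = dP P (fun y => dg k (om y)) x := by
  rw [dP, dP, wP_apply, wP_apply, map_sum]
  refine Finset.sum_congr rfl fun i _ => ?_
  rw [add_comm k, dg_mul_left (Dg_ioC _), fderiv_lin _ h]

theorem dg_dP_zero (P : Module.End ℂ (W E)) (om : E → CF E) (x : E) : dg 0 (dP P om x) = 0 := by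
  rw [dP, wP_apply, map_sum]
  exact Finset.sum_eq_zero fun i _ => dg_mul_left_of_lt (Dg_ioC _) one_pos _

theorem dg_dC (h : DifferentiableAt ℝ om x) (k : ℕ) :
    dg (k + 1) (dC om x) = dC (fun y => dg k (om y)) x := by
  rw [← dP_one h, dg_dP 1 h, dP_one (DifferentiableAt.lin _ h)]

theorem dg_dC_zero (h : DifferentiableAt ℝ om x) : dg 0 (dC om x) = 0 := by
  rw [← dP_one h, dg_dP_zero]

theorem Dg_dC {k : ℕ} (h : DifferentiableAt ℝ om x) (hk : ∀ᶠ y in 𝓝 x, om y ∈ Dg E k) :
    dC om x ∈ Dg E (k + 1) := by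
  rw [mem_Dg_iff, dg_dC h]
  exact dC_congr (hk.mono fun y hy => dg_self hy)

theorem Ty_dP_left (hP : P * P = P) (h : DifferentiableAt ℝ om x)
    (ht : ∀ᶠ y in 𝓝 x, om y ∈ Ty P p q) : dP P om x ∈ Ty P (p + 1) q := by
  rw [mem_Ty_iff hP, prj_dP_left hP h]
  exact dP_congr (ht.mono fun y hy => prj_self hy)

theorem Ty_dP_right (hP : P * P = P) (h : DifferentiableAt ℝ om x)
    (ht : ∀ᶠ y in 𝓝 x, om y ∈ Ty P p q) : dP (1 - P) om x ∈ Ty P p (q + 1) := by
  rw [mem_Ty_iff hP, prj_dP_right hP h]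
  exact dP_congr (ht.mono fun y hy => prj_self hy)

theorem dP_left_eq_prj (hP : P * P = P) (h : DifferentiableAt ℝ om x)
    (ht : ∀ᶠ y in 𝓝 x, om y ∈ Ty P p q) : dP P om x = prj P (p + 1) q (dC om x) := by
  rw [← dP_add_compl P h, map_add, prj_self (Ty_dP_left hP h ht),
    prj_ne (Ty_dP_right hP h ht) (by omega), add_zero]

theorem dP_right_eq_prj (hP : P * P = P) (h : DifferentiableAt ℝ om x)
    (ht : ∀ᶠ y in 𝓝 x, om y ∈ Ty P p q) : dP (1 - P) om x = prj P p (q + 1) (dC om x) := by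
  rw [← dP_add_compl P h, map_add, prj_self (Ty_dP_right hP h ht),
    prj_ne (Ty_dP_left hP h ht) (by omega), zero_add]

/-- the components of `dC om` -/
theorem prj_dC (hP : P * P = P) (h : DifferentiableAt ℝ om x) (p q : ℕ) :
    prj P p q (dC om x) = (if p = 0 then 0 else dP P (fun y => prj P (p - 1) q (om y)) x)
      + (if q = 0 then 0 else dP (1 - P) (fun y => prj P p (q - 1) (om y)) x) := by
  rw [← dP_add_compl P h, map_add]
  congr 1
  · cases p with
    | zero => rw [if_pos rfl, prj_dP_left_zero hP]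
    | succ p => rw [if_neg (Nat.succ_ne_zero p), prj_dP_left hP h, Nat.add_sub_cancel]
  · cases q with
    | zero => rw [if_pos rfl, prj_dP_right_zero hP]
    | succ q => rw [if_neg (Nat.succ_ne_zero q), prj_dP_right hP h, Nat.add_sub_cancel]

/-- naturality of `dP` for maps whose differential respects the projections -/
theorem dP_pullC {Q : Module.End ℂ (W F)} (hP : P * P = P) (hQ : Q * Q = Q) {f : E → F}
    {om : F → CF F} (hf : ContDiffAt ℝ 2 f x) (h : ContDiffAt ℝ 1 om (f x))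
    (hc : ∀ᶠ y in 𝓝 x, ∀ l, P (pre ((fderiv ℝ f y : E →L[ℝ] F) : E →ₗ[ℝ] F) l)
      = pre ((fderiv ℝ f y : E →L[ℝ] F) : E →ₗ[ℝ] F) (Q l)) :
    dP P (pullC f om) x = pullC f (dP Q om) x := by
  have hd : DifferentiableAt ℝ om (f x) := h.differentiableAt (by norm_num)
  have hj : ∀ z : ℕ × ℕ, ContDiffAt ℝ 1 (fun y => prj Q z.1 z.2 (om y)) (f x) :=
    fun z => ContDiffAt.lin _ h
  have hpj : ∀ z : ℕ × ℕ, DifferentiableAt ℝ (pullC f fun y => prj Q z.1 z.2 (om y)) x := fun z =>
    (contDiffAt_pullC hf (by norm_num) (hj z)).differentiableAt (by norm_num)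
  have e1 : pullC f om = fun y => ∑ z ∈ box F, pullC f (fun y => prj Q z.1 z.2 (om y)) y := by
    funext y
    rw [← pullC_sum]; simp only [sum_prj_box]
  have e2 : dP Q om (f x) = ∑ z ∈ box F, dP Q (fun y => prj Q z.1 z.2 (om y)) (f x) := by
    rw [← dP_sum _ fun z _ => DifferentiableAt.lin _ hd]; simp only [sum_prj_box]
  rw [e1, dP_sum _ fun z _ => hpj z, pullC, e2, map_sum]
  refine Finset.sum_congr rfl fun z _ => ?_
  rw [dP_left_eq_prj hP (p := z.1) (q := z.2) (hpj z), dC_pullC hf (cd_iff.2 (hj z)),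
    dP_left_eq_prj hQ (p := z.1) (q := z.2) (DifferentiableAt.lin _ hd)
      (Filter.Eventually.of_forall fun y => prj_mem hQ _ _ _), pullC, pbC_eq_mapC, pbC_eq_mapC,
    prj_mapC hc.self_of_nhds]
  filter_upwards [hc] with y hy
  rw [pullC, pbC_eq_mapC]
  exact Ty_mapC hy (prj_mem hQ _ _ _)

end dP

section dol
variable {E F : Type*} [NormedAddCommGroup E] [NormedSpace ℝ E] [FiniteDimensional ℝ E]
  [NormedSpace ℂ E] [IsScalarTower ℝ ℂ E]
  [NormedAddCommGroup F] [NormedSpace ℝ F] [FiniteDimensional ℝ F]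
  [NormedSpace ℂ F] [IsScalarTower ℝ ℂ F]

variable (E) in
/-- the projection defining the Hodge types on a complex vector space -/
abbrev Pc : Module.End ℂ (W E) := P10 (Jc E)

variable (E) in
theorem Pc_idem : Pc E * Pc E = Pc E := (isJ_Jc E).idem

/-- the operator `∂` -/
def del (om : E → CF E) (x : E) : CF E := dP (Pc E) om x
/-- the operator `∂̄` -/
def dbar (om : E → CF E) (x : E) : CF E := dP (1 - Pc E) om x

theorem del_def (om : E → CF E) : del om = dP (Pc E) om := rfl
theorem dbar_def (om : E → CF E) : dbar om = dP (1 - Pc E) om := rfl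

variable {om η : E → CF E} {x : E} {p q : ℕ}

theorem del_add_dbar (h : DifferentiableAt ℝ om x) : del om x + dbar om x = dC om x :=
  dP_add_compl _ h
theorem del_del (h : ContDiffAt ℝ 2 om x) : del (del om) x = 0 := dP_dP _ h
theorem dbar_dbar (h : ContDiffAt ℝ 2 om x) : dbar (dbar om) x = 0 := dP_dP _ h
theorem del_dbar (h : ContDiffAt ℝ 2 om x) : del (dbar om) x = - dbar (del om) x := dP_dP_anti _ _ h
theorem del_mul (h : DifferentiableAt ℝ om x) (h' : DifferentiableAt ℝ η x) :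
    del (fun y => om y * η y) x = del om x * η x + invC (om x) * del η x := dP_mul h h'
theorem dbar_mul (h : DifferentiableAt ℝ om x) (h' : DifferentiableAt ℝ η x) :
    dbar (fun y => om y * η y) x = dbar om x * η x + invC (om x) * dbar η x := dP_mul h h'
theorem conj_del (h : DifferentiableAt ℝ om x) :
    Cx.conj (del om x) = dbar (fun y => Cx.conj (om y)) x := by
  rw [del, conj_dP h, cjM_P10]; rfl
theorem conj_dbar (h : DifferentiableAt ℝ om x) :
    Cx.conj (dbar om x) = del (fun y => Cx.conj (om y)) x := by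
  have : cjM (1 - Pc E) = Pc E := by
    rw [← cjM_P10]; ext l v; simp [cjM_apply]
  rw [dbar, conj_dP h, this]; rfl
theorem IsType.del (h : DifferentiableAt ℝ om x) (ht : ∀ᶠ y in 𝓝 x, IsType (Jc E) p q (om y)) :
    IsType (Jc E) (p + 1) q (del om x) := Ty_dP_left (Pc_idem E) h ht
theorem IsType.dbar (h : DifferentiableAt ℝ om x) (ht : ∀ᶠ y in 𝓝 x, IsType (Jc E) p q (om y)) :
    IsType (Jc E) p (q + 1) (dbar om x) := Ty_dP_right (Pc_idem E) h ht

/-- the real differential of a holomorphic map is complex linear -/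
theorem fderiv_J {f : E → F} (hf : DifferentiableAt ℂ f x) (v : E) :
    ((fderiv ℝ f x : E →L[ℝ] F) : E →ₗ[ℝ] F) (Jc E v)
      = Jc F (((fderiv ℝ f x : E →L[ℝ] F) : E →ₗ[ℝ] F) v) := by
  rw [(hf.hasFDerivAt.restrictScalars ℝ).fderiv]; simp

theorem prj_pullC {f : E → F} (hf : DifferentiableAt ℂ f x) (p q : ℕ) (om : F → CF F) :
    prj (Pc E) p q (pullC f om x) = pullC f (fun y => prj (Pc F) p q (om y)) x :=
  prj_pbC (fderiv_J hf) p q _

theorem IsType.pullC {f : E → F} (hf : DifferentiableAt ℂ f x) {om : F → CF F}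
    (h : IsType (Jc F) p q (om (f x))) : IsType (Jc E) p q (pullC f om x) :=
  IsType.pbC (fderiv_J hf) h

theorem del_pullC {f : E → F} {om : F → CF F} (hf : ContDiffAt ℝ 2 f x)
    (hh : ∀ᶠ y in 𝓝 x, DifferentiableAt ℂ f y) (h : ContDiffAt ℝ 1 om (f x)) :
    del (pullC f om) x = pullC f (del om) x :=
  dP_pullC (Pc_idem E) (Pc_idem F) hf h (hh.mono fun _ hy l => P10_pre (fderiv_J hy) l)

theorem dbar_pullC {f : E → F} {om : F → CF F} (hf : ContDiffAt ℝ 2 f x)
    (hh : ∀ᶠ y in 𝓝 x, DifferentiableAt ℂ f y) (h : ContDiffAt ℝ 1 om (f x)) :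
    dbar (pullC f om) x = pullC f (dbar om) x :=
  dP_pullC (idem_compl (Pc_idem E)) (idem_compl (Pc_idem F)) hf h (hh.mono fun _ hy l => by
    simp only [LinearMap.sub_apply, Module.End.one_apply, map_sub, P10_pre (fderiv_J hy) l])

theorem dbar_holo {g : E → ℂ} (hg : DifferentiableAt ℂ g x) :
    dbar (fun y => algebraMap ℂ (CF E) (g y)) x = 0 := by
  rw [dbar, dP_algebraMap (hg.restrictScalars ℝ), LinearMap.sub_apply,
    P10_eq_self fun v => fderiv_J hg v, Module.End.one_apply, sub_self, map_zero]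

theorem del_holo {g : E → ℂ} (hg : DifferentiableAt ℂ g x) :
    del (fun y => algebraMap ℂ (CF E) (g y)) x
      = ioC ((fderiv ℝ g x : E →L[ℝ] ℂ) : E →ₗ[ℝ] ℂ) := by
  rw [del, dP_algebraMap (hg.restrictScalars ℝ), P10_eq_self fun v => fderiv_J hg v]

/-- `∂` and `∂̄` in a complex basis -/
theorem wP_Pc {ι : Type*} [Fintype ι] (b : Basis ι ℂ E) (T : E →L[ℝ] CF E) :
    wP (Pc E) T = ∑ a, ioC ((b.coord a).restrictScalars ℝ) *
      ((2 : ℂ)⁻¹ • (T (b a) - I • T (I • b a))) := by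
  obtain ⟨c, hcc⟩ : ∃ c, c = finBasis ℝ E := ⟨_, rfl⟩
  have hT : ∀ v, T v = ∑ i, ofD (c.coord i) v • T (c i) := fun v => by
    conv_lhs => rw [← c.sum_repr v, map_sum]
    simp only [map_smul, rsmul_eq]
    rfl
  have hl : ∀ l : W E, Pc E l = ∑ a, Pc E l (b a) • (b.coord a).restrictScalars ℝ := fun l => by
    ext v
    have hc : ∀ (z : ℂ) (w : E), Pc E l (z • w) = z * Pc E l w := fun z w => by
      have : z • w = z.re • w + z.im • Jc E w := by
        rw [Jc_apply, ← smul_assoc, ← smul_one_smul ℂ z.re w, ← add_smul]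
        congr 1; simp
      rw [this, map_add, map_smul, map_smul, P10_J (isJ_Jc E)]
      conv_rhs => rw [← re_add_im z]
      simp only [real_smul]; ring
    conv_lhs => rw [← b.sum_repr v, map_sum]
    simp only [hc]
    simp [mul_comm]
  have e : ∀ a, (2 : ℂ)⁻¹ • (T (b a) - I • T (I • b a)) = ∑ i, Pc E (ofD (c.coord i)) (b a) • T (c i) := by
    intro a
    rw [hT (b a), hT (I • b a), Finset.smul_sum, ← Finset.sum_sub_distrib, Finset.smul_sum]
    refine Finset.sum_congr rfl fun i _ => ?_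
    rw [smul_smul, ← sub_smul, smul_smul]; rfl
  simp only [e, Finset.mul_sum]
  rw [Finset.sum_comm, wP_basis c]
  refine Finset.sum_congr rfl fun i _ => ?_
  conv_lhs => rw [hl (ofD (c.coord i))]
  simp only [map_sum, map_smul, Finset.sum_mul, mul_smul_comm, smul_mul_assoc]

theorem wP_Pc' {ι : Type*} [Fintype ι] (b : Basis ι ℂ E) (T : E →L[ℝ] CF E) :
    wP (1 - Pc E) T = ∑ a, ioC (cjW ((b.coord a).restrictScalars ℝ)) *
      ((2 : ℂ)⁻¹ • (T (b a) + I • T (I • b a))) := by
  have h1 : wP (1 - Pc E) T = Cx.conj (wP (Pc E) ((conjL E).comp T)) := by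
    rw [wP_apply, wP_apply, map_sum]
    refine Finset.sum_congr rfl fun i _ => ?_
    rw [map_mul, conj_ioC, ← cjM_P10, cjM_apply, cjW_ofD]
    simp [Cx.conj_conj]
  rw [h1, wP_Pc b, map_sum]
  refine Finset.sum_congr rfl fun a _ => ?_
  rw [map_mul, conj_ioC]
  congr 1
  simp [conj_smul, Cx.conj_conj, map_ofNat]

theorem del_basis {ι : Type*} [Fintype ι] (b : Basis ι ℂ E) (om : E → CF E) (x : E) :
    del om x = ∑ a, ioC ((b.coord a).restrictScalars ℝ) *
      ((2 : ℂ)⁻¹ • (fderiv ℝ om x (b a) - I • fderiv ℝ om x (I • b a))) := wP_Pc b _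

theorem dbar_basis {ι : Type*} [Fintype ι] (b : Basis ι ℂ E) (om : E → CF E) (x : E) :
    dbar om x = ∑ a, ioC (cjW ((b.coord a).restrictScalars ℝ)) *
      ((2 : ℂ)⁻¹ • (fderiv ℝ om x (b a) + I • fderiv ℝ om x (I • b a))) := wP_Pc' b _

end dol

end Crest.Agent.X262.Frm
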