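import Crest.Agent.R208.CW0b

/-! Row 262, package Frm (helper58).  Alg: complex covectors in `CF E`, induction, universal
property, functoriality in complex covector maps, contraction, conjugation. -/

set_option autoImplicit false
set_option linter.unusedSectionVars false
set_option linter.unusedSimpArgs false

open scoped BigOperators
open Module

noncomputable section

namespace Crest.Agent.X262.Frm

open Crest.Agent.R208.F Crest.Agent.R208.CW

/-- the real module structure of `Cx R` is the one of its real algebra structure (without this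
instance `Module.complexToReal` is found, which is not definitionally the same) -/
instance (priority := 1100) modR {R : Type*} [Ring R] [Algebra ℝ R] : Module ℝ (Cx R) :=
  Algebra.toModule

instance {R : Type*} [Ring R] [Algebra ℝ R] : SMulCommClass ℝ ℂ (Cx R) := ⟨fun r z a => by
  refine Cx.ext ?_ ?_
  · simp only [Cx.smul_re, Cx.smul_im, Cx.csmul_re, smul_sub, smul_comm r]
  · simp only [Cx.smul_re, Cx.smul_im, Cx.csmul_im, smul_add, smul_comm r]⟩

instance {R : Type*} [Ring R] [Algebra ℝ R] : SMulCommClass ℂ ℝ (Cx R) := SMulCommClass.symm _ _ _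

/-- complex valued real covectors -/
abbrev W (E : Type*) [AddCommGroup E] [Module ℝ E] := E →ₗ[ℝ] ℂ

section basic
variable {E F G : Type*} [AddCommGroup E] [Module ℝ E] [AddCommGroup F] [Module ℝ F]
  [AddCommGroup G] [Module ℝ G]

/-- a complex covector as a complex form -/
def ioC : W E →ₗ[ℂ] CF E where
  toFun l := ⟨io (Complex.reLm ∘ₗ l), io (Complex.imLm ∘ₗ l)⟩
  map_add' l m := by
    refine Cx.ext ?_ ?_ <;> simp [LinearMap.comp_add]
  map_smul' z l := by
    refine Cx.ext ?_ ?_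
    · simp only [RingHom.id_apply, Cx.csmul_re]
      rw [← map_smul, ← map_smul, ← map_sub]; congr 1
    · simp only [RingHom.id_apply, Cx.csmul_im]
      rw [← map_smul, ← map_smul, ← map_add]; congr 1

theorem ioC_re (l : W E) : (ioC l).re = io (Complex.reLm ∘ₗ l) := rfl
theorem ioC_im (l : W E) : (ioC l).im = io (Complex.imLm ∘ₗ l) := rfl

/-- a real covector as a complex covector -/
def ofD : Module.Dual ℝ E →ₗ[ℝ] W E := LinearMap.llcomp ℝ E ℝ ℂ Complex.ofRealAm.toLinearMap

@[simp] theorem ofD_apply (l : Module.Dual ℝ E) (v : E) : ofD l v = (l v : ℂ) := rfl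

theorem ioC_ofD (l : Module.Dual ℝ E) : ioC (ofD l) = Cx.ofR (io l) := by
  refine Cx.ext ?_ ?_
  · rw [ioC_re, Cx.ofR_re]; congr 1
  · rw [ioC_im, Cx.ofR_im]
    have : Complex.imLm ∘ₗ ofD l = 0 := by ext v; simp
    rw [this, map_zero]

theorem W_eq (l : W E) : l = ofD (Complex.reLm ∘ₗ l) + Complex.I • ofD (Complex.imLm ∘ₗ l) := by
  ext v
  simp [mul_comm Complex.I]

theorem invC_ioC (l : W E) : invC (ioC l) = - ioC l := by
  refine Cx.ext ?_ ?_ <;> simp [ioC_re, ioC_im, inv_io]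

theorem ioC_mul (l : W E) (c : CF E) : ioC l * c = invC c * ioC l := odd_commC (invC_ioC l) c

theorem ioC_anti (l m : W E) : ioC l * ioC m = - (ioC m * ioC l) := by
  rw [ioC_mul, invC_ioC, neg_mul]

theorem ioC_sq (l : W E) : ioC l * ioC l = 0 := by
  have h := ioC_anti l l
  have h2 : (2 : ℂ) • (ioC l * ioC l) = 0 := by rw [two_smul]; nth_rewrite 1 [h]; exact neg_add_cancel _
  exact (smul_eq_zero.1 h2).resolve_left two_ne_zero

theorem ioC_add_swap (l m : W E) : ioC l * ioC m + ioC m * ioC l = 0 := by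
  rw [ioC_anti, neg_add_cancel]

theorem eq_re_im (a : CF E) : a = Cx.ofR a.re + Complex.I • Cx.ofR a.im := by
  refine Cx.ext ?_ ?_ <;> simp

theorem ofR_algebraMap (r : ℝ) : (Cx.ofR (algebraMap ℝ (Ext E) r) : CF E) = algebraMap ℂ (CF E) r :=
  (Cx.algebraMap_ofReal r).symm

theorem ofR_smul (r : ℝ) (a : Ext E) : (Cx.ofR (r • a) : CF E) = r • Cx.ofR a := by
  refine Cx.ext ?_ ?_ <;> simp

theorem rsmul_eq (r : ℝ) (a : CF E) : r • a = (r : ℂ) • a := by
  refine Cx.ext ?_ ?_
  · rw [Cx.smul_re, Cx.csmul_re]; simp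
  · rw [Cx.smul_im, Cx.csmul_im]; simp

/-- left induction principle for complex forms -/
theorem indC {P : CF E → Prop} (h0 : ∀ z : ℂ, P (algebraMap ℂ (CF E) z))
    (hadd : ∀ x y, P x → P y → P (x + y)) (hmul : ∀ x l, P x → P (ioC l * x)) (c : CF E) : P c := by
  have key : ∀ a : Ext E, ∀ z : ℂ, P (z • Cx.ofR a) := by
    intro a
    induction a using ind with
    | h0 r => intro z; rw [ofR_algebraMap, Algebra.smul_def, ← map_mul]; exact h0 _
    | hadd x y hx hy => intro z; rw [map_add, smul_add]; exact hadd _ _ (hx z) (hy z)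
    | hmul x l hx =>
      intro z
      rw [map_mul, ← ioC_ofD, ← mul_smul_comm]
      exact hmul _ _ (hx z)
  rw [eq_re_im c]
  refine hadd _ _ ?_ (key _ _)
  have := key c.re 1
  rwa [one_smul] at this

/-- two complex algebra maps out of `CF E` agree if they agree on covectors -/
theorem algHom_extC {A : Type*} [Semiring A] [Algebra ℂ A] {f g : CF E →ₐ[ℂ] A}
    (h : ∀ l, f (ioC l) = g (ioC l)) : f = g := by
  refine AlgHom.ext fun c => ?_
  induction c using indC with
  | h0 z => rw [AlgHom.commutes, AlgHom.commutes]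
  | hadd x y hx hy => rw [map_add, map_add, hx, hy]
  | hmul x l hx => rw [map_mul, map_mul, hx, h]

section lift
variable {A : Type*} [Ring A] [Algebra ℂ A]

/-- complex linear extension of a real algebra map -/
def cxLift (φ : Ext E →ₐ[ℝ] A) : CF E →ₐ[ℂ] A where
  toFun a := φ a.re + Complex.I • φ a.im
  map_one' := by simp
  map_mul' a b := by
    simp only [Cx.mul_re, Cx.mul_im, map_sub, map_add, map_mul, add_mul, mul_add, smul_add,
      smul_mul_assoc, mul_smul_comm, smul_smul, Complex.I_mul_I, neg_smul, one_smul]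
    abel
  map_zero' := by simp
  map_add' a b := by
    simp only [Cx.add_re, Cx.add_im, map_add, smul_add]; abel
  commutes' z := by
    simp only [Cx.algebraMap_re, Cx.algebraMap_im, AlgHom.commutes]
    rw [IsScalarTower.algebraMap_apply ℝ ℂ A, IsScalarTower.algebraMap_apply ℝ ℂ A,
      Algebra.smul_def, ← map_mul, ← map_add]
    congr 1
    simp [mul_comm Complex.I]

theorem cxLift_apply (φ : Ext E →ₐ[ℝ] A) (a : CF E) :
    cxLift φ a = φ a.re + Complex.I • φ a.im := rfl

/-- universal property of `CF E` -/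
def liftC (f : W E →ₗ[ℂ] A) (hf : ∀ l, f l * f l = 0) : CF E →ₐ[ℂ] A :=
  cxLift (ExteriorAlgebra.lift ℝ ⟨(f.restrictScalars ℝ) ∘ₗ ofD, fun l => hf (ofD l)⟩)

@[simp] theorem liftC_ioC (f : W E →ₗ[ℂ] A) (hf : ∀ l, f l * f l = 0) (l : W E) :
    liftC f hf (ioC l) = f l := by
  have key : ∀ m : Module.Dual ℝ E, (ExteriorAlgebra.lift ℝ
      ⟨(f.restrictScalars ℝ) ∘ₗ ofD, fun l => hf (ofD l)⟩ : Ext E →ₐ[ℝ] A) (io m) = f (ofD m) :=
    fun m => ExteriorAlgebra.lift_ι_apply ℝ _ _ m
  rw [liftC, cxLift_apply, ioC_re, ioC_im, key, key]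
  conv_rhs => rw [W_eq l]
  rw [map_add, map_smul]

end lift

/-- `CF E` is the complex exterior algebra of the complex covectors -/
def equivX : CF E ≃ₐ[ℂ] ExteriorAlgebra ℂ (W E) :=
  AlgEquiv.ofAlgHom (liftC (ExteriorAlgebra.ι ℂ) ExteriorAlgebra.ι_sq_zero)
    (ExteriorAlgebra.lift ℂ ⟨ioC, ioC_sq⟩)
    (by ext l; simp) (algHom_extC fun l => by simp)

@[simp] theorem equivX_ioC (l : W E) : equivX (ioC l) = ExteriorAlgebra.ι ℂ l :=
  liftC_ioC _ ExteriorAlgebra.ι_sq_zero l

@[simp] theorem equivX_symm_ι (l : W E) : equivX.symm (ExteriorAlgebra.ι ℂ l) = ioC l := by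
  rw [AlgEquiv.symm_apply_eq, equivX_ioC]

theorem ioC_injective : Function.Injective (ioC : W E → CF E) := fun l m h => by
  have := congrArg equivX h
  rw [equivX_ioC, equivX_ioC] at this
  exact (ExteriorAlgebra.ι_inj ℂ _ _).1 this

/-- functoriality in complex linear maps of covectors -/
def mapC (M : W F →ₗ[ℂ] W E) : CF F →ₐ[ℂ] CF E := liftC (ioC ∘ₗ M) fun _ => ioC_sq _

@[simp] theorem mapC_ioC (M : W F →ₗ[ℂ] W E) (l : W F) : mapC M (ioC l) = ioC (M l) :=
  liftC_ioC _ _ l

theorem mapC_mapC (M : W F →ₗ[ℂ] W E) (N : W G →ₗ[ℂ] W F) (c : CF G) :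
    mapC M (mapC N c) = mapC (M ∘ₗ N) c := by
  have : (mapC M).comp (mapC N) = mapC (M ∘ₗ N) := algHom_extC fun l => by simp
  exact AlgHom.congr_fun this c

@[simp] theorem mapC_id (c : CF E) : mapC LinearMap.id c = c := by
  have : mapC (LinearMap.id : W E →ₗ[ℂ] W E) = AlgHom.id ℂ _ := algHom_extC fun l => by simp
  exact AlgHom.congr_fun this c

/-- composition of covectors with a real linear map -/
def pre (A : E →ₗ[ℝ] F) : W F →ₗ[ℂ] W E where
  toFun l := l ∘ₗ A
  map_add' _ _ := rfl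
  map_smul' _ _ := rfl

@[simp] theorem pre_apply (A : E →ₗ[ℝ] F) (l : W F) (v : E) : pre A l v = l (A v) := rfl

theorem pre_eq (A : E →ₗ[ℝ] F) (l : W F) : pre A l = l ∘ₗ A := rfl

@[simp] theorem pbC_ioC (A : E →ₗ[ℝ] F) (l : W F) : pbC A (ioC l) = ioC (pre A l) := by
  refine Cx.ext ?_ ?_
  · rw [pbC_re, ioC_re, ioC_re, pb_io]; rfl
  · rw [pbC_im, ioC_im, ioC_im, pb_io]; rfl

/-- `pbC` as a complex algebra map -/
def pbA (A : E →ₗ[ℝ] F) : CF F →ₐ[ℂ] CF E := { pbC A with commutes' := pbC_algebraMap A }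

@[simp] theorem pbA_apply (A : E →ₗ[ℝ] F) (c : CF F) : pbA A c = pbC A c := rfl

theorem pbC_eq_mapC (A : E →ₗ[ℝ] F) (c : CF F) : pbC A c = mapC (pre A) c := by
  have : pbA A = mapC (pre A) := algHom_extC fun l => by simp
  exact AlgHom.congr_fun this c

theorem pbC_pbC (A : E →ₗ[ℝ] F) (B : F →ₗ[ℝ] G) (c : CF G) : pbC A (pbC B c) = pbC (B ∘ₗ A) c :=
  Cx.ext (pb_comp _ _ _) (pb_comp _ _ _)

@[simp] theorem pbC_id' (c : CF E) : pbC LinearMap.id c = c := Cx.ext (pb_id _) (pb_id _)

/-- `invC` as a complex algebra map -/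
def invA : CF E →ₐ[ℂ] CF E := { invC with commutes' := invC_algebraMap }

@[simp] theorem invA_apply (c : CF E) : invA c = invC c := rfl

theorem invC_eq_mapC (c : CF E) : invC c = mapC (-LinearMap.id) c := by
  have : invA = mapC (-LinearMap.id : W E →ₗ[ℂ] W E) := algHom_extC fun l => by simp [invC_ioC]
  exact AlgHom.congr_fun this c

theorem mapC_invC (M : W F →ₗ[ℂ] W E) (c : CF F) : mapC M (invC c) = invC (mapC M c) := by
  rw [invC_eq_mapC, invC_eq_mapC, mapC_mapC, mapC_mapC]
  congr 2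
  ext l v; simp

/-! ### conjugation -/

/-- conjugate covector -/
def cjW (l : W E) : W E := Complex.conjAe.toLinearMap ∘ₗ l

@[simp] theorem cjW_apply (l : W E) (v : E) : cjW l v = (starRingEnd ℂ) (l v) := rfl

@[simp] theorem cjW_cjW (l : W E) : cjW (cjW l) = l := by ext v; simp

theorem cjW_add (l m : W E) : cjW (l + m) = cjW l + cjW m := by ext v; simp
theorem cjW_sub (l m : W E) : cjW (l - m) = cjW l - cjW m := by ext v; simp
theorem cjW_smul (z : ℂ) (l : W E) : cjW (z • l) = (starRingEnd ℂ) z • cjW l := by ext v; simp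
@[simp] theorem cjW_ofD (l : Module.Dual ℝ E) : cjW (ofD l) = ofD l := by ext v; simp

theorem conj_ioC (l : W E) : Cx.conj (ioC l) = ioC (cjW l) := by
  refine Cx.ext ?_ ?_
  · rw [Cx.conj_re, ioC_re, ioC_re]; congr 1
  · rw [Cx.conj_im, ioC_im, ioC_im, ← map_neg]; congr 1

theorem conj_smul (z : ℂ) (a : CF E) : Cx.conj (z • a) = (starRingEnd ℂ) z • Cx.conj a := by
  refine Cx.ext ?_ ?_
  · simp
  · simp; abel

theorem conj_rsmul (r : ℝ) (a : CF E) : Cx.conj (r • a) = r • Cx.conj a := by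
  refine Cx.ext ?_ ?_ <;> simp

theorem conj_algebraMap (z : ℂ) :
    Cx.conj (algebraMap ℂ (CF E) z) = algebraMap ℂ (CF E) ((starRingEnd ℂ) z) := by
  refine Cx.ext ?_ ?_ <;> simp

theorem conj_invC (c : CF E) : Cx.conj (invC c) = invC (Cx.conj c) := by
  refine Cx.ext ?_ ?_ <;> simp

theorem conj_pbC (A : E →ₗ[ℝ] F) (c : CF F) : Cx.conj (pbC A c) = pbC A (Cx.conj c) := by
  refine Cx.ext ?_ ?_ <;> simp

/-- the conjugate of a complex linear map of covectors -/
def cjM (M : W F →ₗ[ℂ] W E) : W F →ₗ[ℂ] W E where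
  toFun l := cjW (M (cjW l))
  map_add' l m := by rw [cjW_add, map_add, cjW_add]
  map_smul' z l := by rw [cjW_smul, map_smul, cjW_smul]; simp

theorem cjM_apply (M : W F →ₗ[ℂ] W E) (l : W F) : cjM M l = cjW (M (cjW l)) := rfl

theorem conj_mapC (M : W F →ₗ[ℂ] W E) (c : CF F) : Cx.conj (mapC M c) = mapC (cjM M) (Cx.conj c) := by
  induction c using indC with
  | h0 z => rw [AlgHom.commutes, conj_algebraMap, conj_algebraMap, AlgHom.commutes]
  | hadd x y hx hy => simp only [map_add, hx, hy]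
  | hmul x l hx => simp only [map_mul, hx, mapC_ioC, conj_ioC, cjM_apply, cjW_cjW]

/-! ### contraction -/

/-- contraction of a complex form with a real vector -/
def iiC : E →ₗ[ℝ] CF E →ₗ[ℂ] CF E where
  toFun v :=
    { toFun := fun a => ⟨ii v a.re, ii v a.im⟩
      map_add' := fun a b => by refine Cx.ext ?_ ?_ <;> simp
      map_smul' := fun z a => by refine Cx.ext ?_ ?_ <;> simp }
  map_add' v w := by
    refine LinearMap.ext fun a => Cx.ext ?_ ?_ <;> simp
  map_smul' r v := by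
    refine LinearMap.ext fun a => Cx.ext ?_ ?_ <;> simp

@[simp] theorem iiC_re (v : E) (a : CF E) : (iiC v a).re = ii v a.re := rfl
@[simp] theorem iiC_im (v : E) (a : CF E) : (iiC v a).im = ii v a.im := rfl

@[simp] theorem iiC_algebraMap (v : E) (z : ℂ) : iiC v (algebraMap ℂ (CF E) z) = 0 := by
  refine Cx.ext ?_ ?_ <;> simp

@[simp] theorem iiC_one (v : E) : iiC v (1 : CF E) = 0 := by
  refine Cx.ext ?_ ?_ <;> simp

@[simp] theorem iiC_ioC (v : E) (l : W E) : iiC v (ioC l) = algebraMap ℂ (CF E) (l v) := by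
  refine Cx.ext ?_ ?_ <;> simp [ioC_re, ioC_im]

theorem iiC_mul (v : E) (a b : CF E) : iiC v (a * b) = iiC v a * b + invC a * iiC v b := by
  refine Cx.ext ?_ ?_
  · simp only [iiC_re, iiC_im, Cx.mul_re, Cx.add_re, map_sub, ii_mul, invC_re, invC_im]; abel
  · simp only [iiC_re, iiC_im, Cx.mul_im, Cx.add_im, map_add, ii_mul, invC_re, invC_im]; abel

theorem iiC_ioC_mul (v : E) (l : W E) (c : CF E) :
    iiC v (ioC l * c) = l v • c - ioC l * iiC v c := by
  rw [iiC_mul, iiC_ioC, invC_ioC, neg_mul, ← Algebra.smul_def, sub_eq_add_neg]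

theorem iiC_iiC (v : E) (c : CF E) : iiC v (iiC v c) = 0 := Cx.ext (ii_ii _ _) (ii_ii _ _)

theorem iiC_comm (v w : E) (c : CF E) : iiC v (iiC w c) = - iiC w (iiC v c) :=
  Cx.ext (ii_comm _ _ _) (ii_comm _ _ _)

theorem invC_iiC (v : E) (c : CF E) : invC (iiC v c) = - iiC v (invC c) :=
  Cx.ext (inv_ii _ _) (inv_ii _ _)

theorem iiC_invC (v : E) (c : CF E) : iiC v (invC c) = - invC (iiC v c) := by
  rw [invC_iiC, neg_neg]

theorem iiC_pbC (A : E →ₗ[ℝ] F) (v : E) (c : CF F) : iiC v (pbC A c) = pbC A (iiC (A v) c) :=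
  Cx.ext (ii_pb _ _ _) (ii_pb _ _ _)

theorem conj_iiC (v : E) (c : CF E) : Cx.conj (iiC v c) = iiC v (Cx.conj c) := by
  refine Cx.ext ?_ ?_ <;> simp

theorem iiC_rsmul (v : E) (r : ℝ) (c : CF E) : iiC v (r • c) = r • iiC v c := by
  rw [rsmul_eq, rsmul_eq, map_smul]

theorem iiC_pow {a : CF E} (h : invC a = a) (v : E) (k : ℕ) :
    iiC v (a ^ (k + 1)) = ((k + 1 : ℕ) : ℂ) • (a ^ k * iiC v a) := by
  induction k with
  | zero => simp
  | succ k ih =>
    rw [pow_succ' a (k + 1), iiC_mul, ih, h, mul_smul_comm, ← mul_assoc, ← pow_succ',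
      ← even_commC (a := a ^ (k + 1)) (by rw [map_pow, h]), Nat.cast_succ (k + 1), add_smul, one_smul,
      add_comm]

/-- contraction with a complex vector (a complex linear functional on covectors) -/
def ctr : Module.Dual ℂ (W E) →ₗ[ℂ] CF E →ₗ[ℂ] CF E :=
  (LinearEquiv.conj (equivX (E := E)).symm.toLinearEquiv).toLinearMap ∘ₗ
    CliffordAlgebra.contractLeft (Q := (0 : QuadraticForm ℂ (W E)))

theorem ctr_def (φ : Module.Dual ℂ (W E)) (a : CF E) : ctr φ a = equivX.symm
    (CliffordAlgebra.contractLeft (Q := (0 : QuadraticForm ℂ (W E))) φ (equivX a)) := rfl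

theorem ctr_ioC_mul (φ : Module.Dual ℂ (W E)) (l : W E) (c : CF E) :
    ctr φ (ioC l * c) = φ l • c - ioC l * ctr φ c := by
  have h := CliffordAlgebra.contractLeft_ι_mul (Q := (0 : QuadraticForm ℂ (W E))) φ l (equivX c)
  rw [ctr_def, ctr_def, map_mul, equivX_ioC, AlgEquiv.symm_apply_eq, map_sub, map_smul,
    map_mul equivX, equivX_ioC, AlgEquiv.apply_symm_apply]
  exact h

@[simp] theorem ctr_algebraMap (φ : Module.Dual ℂ (W E)) (z : ℂ) :
    ctr φ (algebraMap ℂ (CF E) z) = 0 := by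
  have h := CliffordAlgebra.contractLeft_algebraMap (0 : QuadraticForm ℂ (W E)) φ z
  rw [ctr_def, AlgEquiv.commutes, AlgEquiv.symm_apply_eq, map_zero]
  exact h

@[simp] theorem ctr_one (φ : Module.Dual ℂ (W E)) : ctr φ (1 : CF E) = 0 := by
  simpa using ctr_algebraMap φ 1

@[simp] theorem ctr_ioC (φ : Module.Dual ℂ (W E)) (l : W E) :
    ctr φ (ioC l) = algebraMap ℂ (CF E) (φ l) := by
  have := ctr_ioC_mul φ l 1
  rwa [mul_one, ctr_one, mul_zero, sub_zero, ← Algebra.algebraMap_eq_smul_one] at this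

theorem ctr_mul (φ : Module.Dual ℂ (W E)) (a b : CF E) :
    ctr φ (a * b) = ctr φ a * b + invC a * ctr φ b := by
  induction a using indC with
  | h0 z => rw [ctr_algebraMap, zero_mul, zero_add, invC_algebraMap, ← Algebra.smul_def, map_smul,
      Algebra.smul_def]
  | hadd x y hx hy => simp only [add_mul, map_add, hx, hy]; abel
  | hmul x l hx =>
    rw [mul_assoc, ctr_ioC_mul, hx, ctr_ioC_mul, map_mul, invC_ioC, sub_mul, smul_mul_assoc, mul_add,
      ← mul_assoc, ← mul_assoc, neg_mul, neg_mul]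
    abel

theorem ctr_comm (φ ψ : Module.Dual ℂ (W E)) (c : CF E) : ctr φ (ctr ψ c) = - ctr ψ (ctr φ c) := by
  induction c using indC with
  | h0 z => simp
  | hadd x y hx hy => simp only [map_add, hx, hy]; abel
  | hmul x l hx => simp only [ctr_ioC_mul, map_sub, map_smul, hx, mul_neg]; abel

theorem ctr_ctr (φ : Module.Dual ℂ (W E)) (c : CF E) : ctr φ (ctr φ c) = 0 := by
  have h := ctr_comm φ φ c
  have h2 : (2 : ℂ) • ctr φ (ctr φ c) = 0 := by
    rw [two_smul]; nth_rewrite 1 [h]; exact neg_add_cancel _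
  exact (smul_eq_zero.1 h2).resolve_left two_ne_zero

theorem ctr_mapC (φ : Module.Dual ℂ (W E)) (M : W F →ₗ[ℂ] W E) (c : CF F) :
    ctr φ (mapC M c) = mapC M (ctr (φ ∘ₗ M) c) := by
  induction c using indC with
  | h0 z => simp
  | hadd x y hx hy => simp only [map_add, hx, hy]
  | hmul x l hx => simp only [map_mul, mapC_ioC, ctr_ioC_mul, hx, map_sub, map_smul,
      LinearMap.comp_apply]

theorem invC_ctr (φ : Module.Dual ℂ (W E)) (c : CF E) : invC (ctr φ c) = - ctr φ (invC c) := by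
  induction c using indC with
  | h0 z => simp
  | hadd x y hx hy => simp only [map_add, hx, hy]; abel
  | hmul x l hx =>
    simp only [ctr_ioC_mul, map_sub, map_mul, invC_smul, invC_ioC, hx, neg_mul, mul_neg, map_neg,
      neg_neg]

/-- a real vector as a complex vector -/
def evW (v : E) : Module.Dual ℂ (W E) where
  toFun l := l v
  map_add' _ _ := rfl
  map_smul' _ _ := rfl

@[simp] theorem evW_apply (v : E) (l : W E) : evW v l = l v := rfl

theorem iiC_eq_ctr (v : E) (c : CF E) : iiC v c = ctr (evW v) c := by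
  induction c using indC with
  | h0 z => simp
  | hadd x y hx hy => simp only [map_add, hx, hy]
  | hmul x l hx => rw [iiC_ioC_mul, ctr_ioC_mul, hx, evW_apply]

/-! ### evaluation -/

variable (E) in
/-- evaluation of a complex form on `q` vectors -/
def evC (q : ℕ) (v : Fin q → E) : CF E →ₗ[ℂ] ℂ where
  toFun a := (evA E q a.re v : ℂ) + (evA E q a.im v : ℂ) * Complex.I
  map_add' a b := by simp; ring
  map_smul' z a := by
    simp only [Cx.csmul_re, Cx.csmul_im, map_sub, map_add, map_smul, AlternatingMap.sub_apply,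
      AlternatingMap.add_apply, AlternatingMap.smul_apply, smul_eq_mul, RingHom.id_apply]
    apply Complex.ext <;> simp

theorem evC_apply (q : ℕ) (v : Fin q → E) (a : CF E) :
    evC E q v a = (evA E q a.re v : ℂ) + (evA E q a.im v : ℂ) * Complex.I := rfl

theorem evC_re (q : ℕ) (v : Fin q → E) (a : CF E) : (evC E q v a).re = evA E q a.re v := by
  simp [evC_apply]

theorem evC_im (q : ℕ) (v : Fin q → E) (a : CF E) : (evC E q v a).im = evA E q a.im v := by
  simp [evC_apply]

theorem evC_pbC (q : ℕ) (A : E →ₗ[ℝ] F) (c : CF F) (v : Fin q → E) :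
    evC E q v (pbC A c) = evC F q (fun i => A (v i)) c := by
  simp only [evC_apply, pbC_re, pbC_im, evA_pb]

theorem evC_cons (q : ℕ) (c : CF E) (v : E) (w : Fin q → E) :
    evC E (q + 1) (Matrix.vecCons v w) c = evC E q w (iiC v c) := by
  simp only [evC_apply, evA_ii, iiC_re, iiC_im]

theorem evC_zero_algebraMap (z : ℂ) (v : Fin 0 → E) : evC E 0 v (algebraMap ℂ (CF E) z) = z := by
  simp [evC_apply, evA_zero_algebraMap]

theorem evC_succ_algebraMap (q : ℕ) (z : ℂ) (v : Fin (q + 1) → E) :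
    evC E (q + 1) v (algebraMap ℂ (CF E) z) = 0 := by
  simp [evC_apply, evA_succ_algebraMap]

theorem evC_conj (q : ℕ) (v : Fin q → E) (a : CF E) :
    evC E q v (Cx.conj a) = (starRingEnd ℂ) (evC E q v a) := by
  simp [evC_apply]

theorem evC_comb (q : ℕ) (c : CF E) (v w : Fin q → E) (M : Matrix (Fin q) (Fin q) ℝ)
    (h : ∀ i, w i = ∑ j, M i j • v j) : evC E q w c = (M.det : ℂ) * evC E q v c := by
  simp only [evC_apply, evA_comb q _ v w M h]
  push_cast; ring

end basic

end Crest.Agent.X262.Frm
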