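import Crest.Agent.X262.Frm.Alg

/-! Row 262, package Frm (helper58).  Grd: the bigrading of `CF E` defined by a projection `P` of
the complex covectors (`P l` has bidegree `(1,0)`, `l - P l` has bidegree `(0,1)`).  Special cases:
the degree (`P = 1`), Hodge types (file `Typ`), the bidegree on a product. -/

set_option autoImplicit false
set_option linter.unusedSectionVars false
set_option linter.unusedSimpArgs false

open scoped BigOperators
open Module AddMonoidAlgebra

noncomputable section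

namespace Crest.Agent.X262.Frm

open Crest.Agent.R208.F Crest.Agent.R208.CW

section grd
variable {E F : Type*} [AddCommGroup E] [Module ℝ E] [AddCommGroup F] [Module ℝ F]

/-- the decomposition into bidegrees, as an algebra map -/
def dec (P : Module.End ℂ (W E)) : CF E →ₐ[ℂ] AddMonoidAlgebra (CF E) (ℕ × ℕ) :=
  liftC (lsingle ((1, 0) : ℕ × ℕ) ∘ₗ ioC ∘ₗ P + lsingle ((0, 1) : ℕ × ℕ) ∘ₗ ioC ∘ₗ (1 - P)) fun l => by
    simp only [LinearMap.add_apply, LinearMap.comp_apply, lsingle_apply, add_mul, mul_add,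
      single_mul_single, ioC_sq, single_zero, zero_add, add_zero]
    rw [add_comm ((0, 1) : ℕ × ℕ), ← single_add, ioC_add_swap, single_zero]

variable {P : Module.End ℂ (W E)} {p q p' q' : ℕ} {a b : CF E}

theorem dec_ioC (P : Module.End ℂ (W E)) (l : W E) :
    dec P (ioC l) = single (1, 0) (ioC (P l)) + single (0, 1) (ioC (l - P l)) := by
  rw [dec, liftC_ioC]; rfl

/-- the component of bidegree `(p,q)` -/
def prj (P : Module.End ℂ (W E)) (p q : ℕ) : CF E →ₗ[ℂ] CF E where
  toFun a := (dec P a).coeff (p, q)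
  map_add' a b := by rw [map_add]; rfl
  map_smul' z a := by rw [map_smul]; rfl

theorem prj_def (P : Module.End ℂ (W E)) (p q : ℕ) (a : CF E) :
    prj P p q a = (dec P a).coeff (p, q) := rfl

theorem prj_algebraMap (P : Module.End ℂ (W E)) (p q : ℕ) (z : ℂ) :
    prj P p q (algebraMap ℂ (CF E) z) = if p = 0 ∧ q = 0 then algebraMap ℂ (CF E) z else 0 := by
  rw [prj_def, AlgHom.commutes]
  change (single (0 : ℕ × ℕ) (algebraMap ℂ (CF E) z)).coeff (p, q) = _
  rw [coeff_single, Finsupp.single_apply]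
  simp [Prod.ext_iff, eq_comm]

theorem coeff_10 (c : CF E) (x : AddMonoidAlgebra (CF E) (ℕ × ℕ)) (p q : ℕ) :
    (single ((1, 0) : ℕ × ℕ) c * x).coeff (p, q) = if p = 0 then 0 else c * x.coeff (p - 1, q) := by
  cases p with
  | zero =>
    rw [if_pos rfl]
    exact coeff_single_mul_of_forall_add_ne _ _ fun d h => by simp [Prod.ext_iff] at h
  | succ p =>
    rw [if_neg (Nat.succ_ne_zero p), Nat.add_sub_cancel, ← coeff_single_mul_add x c (1, 0) (p, q)]
    congr 1
    simp [add_comm]

theorem coeff_01 (c : CF E) (x : AddMonoidAlgebra (CF E) (ℕ × ℕ)) (p q : ℕ) :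
    (single ((0, 1) : ℕ × ℕ) c * x).coeff (p, q) = if q = 0 then 0 else c * x.coeff (p, q - 1) := by
  cases q with
  | zero =>
    rw [if_pos rfl]
    exact coeff_single_mul_of_forall_add_ne _ _ fun d h => by simp [Prod.ext_iff] at h
  | succ q =>
    rw [if_neg (Nat.succ_ne_zero q), Nat.add_sub_cancel, ← coeff_single_mul_add x c (0, 1) (p, q)]
    congr 1
    simp [add_comm]

/-- the recursion for the components -/
theorem prj_ioC_mul (P : Module.End ℂ (W E)) (p q : ℕ) (l : W E) (a : CF E) :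
    prj P p q (ioC l * a) = (if p = 0 then 0 else ioC (P l) * prj P (p - 1) q a)
      + (if q = 0 then 0 else ioC (l - P l) * prj P p (q - 1) a) := by
  rw [prj_def, map_mul, dec_ioC, add_mul, coeff_add, Finsupp.add_apply, coeff_10, coeff_01]
  rfl

theorem prj_mul (P : Module.End ℂ (W E)) (p q : ℕ) (a b : CF E) :
    prj P p q (a * b) = ∑ x ∈ Finset.HasAntidiagonal.antidiagonal p,
      ∑ y ∈ Finset.HasAntidiagonal.antidiagonal q, prj P x.1 y.1 a * prj P x.2 y.2 b := by
  rw [prj_def, map_mul, coeff_mul_antidiag _ _ _ ((Finset.HasAntidiagonal.antidiagonal p ×ˢ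
    Finset.HasAntidiagonal.antidiagonal q).map (Equiv.prodProdProdComm ℕ ℕ ℕ ℕ).toEmbedding),
    Finset.sum_map, Finset.sum_product]
  · rfl
  · rintro ⟨⟨a, b⟩, c, d⟩
    simp [Finset.mem_map_equiv]

/-- forms of bidegree `(p,q)` -/
def Ty (P : Module.End ℂ (W E)) (p q : ℕ) : Submodule ℂ (CF E) where
  carrier := {a | dec P a = single (p, q) a}
  add_mem' {a b} ha hb := by
    change dec P (a + b) = _
    rw [map_add, ha, hb, single_add]
  zero_mem' := by change dec P 0 = _; rw [map_zero, single_zero]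
  smul_mem' z a ha := by
    change dec P (z • a) = _
    rw [map_smul, ha, smul_single]

theorem mem_Ty : a ∈ Ty P p q ↔ dec P a = single (p, q) a := Iff.rfl

theorem prj_of_mem (h : a ∈ Ty P p q) (p' q' : ℕ) :
    prj P p' q' a = if p = p' ∧ q = q' then a else 0 := by
  rw [prj_def, mem_Ty.1 h, coeff_single, Finsupp.single_apply]
  simp [Prod.ext_iff]

theorem prj_self (h : a ∈ Ty P p q) : prj P p q a = a := by rw [prj_of_mem h, if_pos ⟨rfl, rfl⟩]

theorem prj_ne (h : a ∈ Ty P p q) (hne : ¬ (p = p' ∧ q = q')) : prj P p' q' a = 0 := by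
  rw [prj_of_mem h, if_neg hne]

theorem Ty_mul (ha : a ∈ Ty P p q) (hb : b ∈ Ty P p' q') : a * b ∈ Ty P (p + p') (q + q') := by
  rw [mem_Ty, map_mul, mem_Ty.1 ha, mem_Ty.1 hb, single_mul_single]; rfl

theorem Ty_algebraMap (P : Module.End ℂ (W E)) (z : ℂ) : algebraMap ℂ (CF E) z ∈ Ty P 0 0 := by
  rw [mem_Ty, AlgHom.commutes]; rfl

theorem Ty_one (P : Module.End ℂ (W E)) : (1 : CF E) ∈ Ty P 0 0 := by
  simpa using Ty_algebraMap P 1

theorem Ty_pow (ha : a ∈ Ty P p q) (k : ℕ) : a ^ k ∈ Ty P (k * p) (k * q) := by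
  induction k with
  | zero => simpa using Ty_one P
  | succ k ih => rw [pow_succ, add_mul, add_mul, one_mul, one_mul]; exact Ty_mul ih ha

theorem Ty_ioC_10 {l : W E} (h : P l = l) : ioC l ∈ Ty P 1 0 := by
  rw [mem_Ty, dec_ioC, h, sub_self, map_zero, single_zero, add_zero]

theorem Ty_ioC_01 {l : W E} (h : P l = 0) : ioC l ∈ Ty P 0 1 := by
  rw [mem_Ty, dec_ioC, h, sub_zero, map_zero, single_zero, zero_add]

theorem Ty_congr (h : a ∈ Ty P p q) (hp : p = p') (hq : q = q') : a ∈ Ty P p' q' := by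
  subst hp hq; exact h

/-- multiplication by a homogeneous form shifts the components -/
theorem prj_mul_left (ha : a ∈ Ty P p q) (p' q' : ℕ) (b : CF E) :
    prj P (p + p') (q + q') (a * b) = a * prj P p' q' b := by
  rw [prj_def, map_mul, mem_Ty.1 ha]
  exact coeff_single_mul_add _ a (p, q) (p', q')

theorem prj_mul_right (hb : b ∈ Ty P p q) (p' q' : ℕ) (a : CF E) :
    prj P (p' + p) (q' + q) (a * b) = prj P p' q' a * b := by
  rw [prj_def, map_mul, mem_Ty.1 hb]
  exact coeff_mul_single_add _ b (p, q) (p', q')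

theorem prj_mul_left_of_lt (ha : a ∈ Ty P p q) (h : p' < p ∨ q' < q) (b : CF E) :
    prj P p' q' (a * b) = 0 := by
  rw [prj_def, map_mul, mem_Ty.1 ha]
  refine coeff_single_mul_of_forall_add_ne _ _ fun d hd => ?_
  simp only [Prod.ext_iff, Prod.fst_add, Prod.snd_add] at hd
  omega

theorem prj_mul_right_of_lt (hb : b ∈ Ty P p q) (h : p' < p ∨ q' < q) (a : CF E) :
    prj P p' q' (a * b) = 0 := by
  rw [prj_def, map_mul, mem_Ty.1 hb]
  refine coeff_mul_single_of_forall_add_ne _ _ fun d hd => ?_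
  simp only [Prod.ext_iff, Prod.fst_add, Prod.snd_add] at hd
  omega

theorem idem_apply (hP : P * P = P) (l : W E) : P (P l) = P l := LinearMap.congr_fun hP l

theorem prj_mem (hP : P * P = P) (p q : ℕ) (a : CF E) : prj P p q a ∈ Ty P p q := by
  induction a using indC generalizing p q with
  | h0 z =>
    rw [prj_algebraMap]
    split_ifs with h
    · rw [h.1, h.2]; exact Ty_algebraMap P z
    · exact zero_mem _
  | hadd x y hx hy => rw [map_add]; exact add_mem (hx p q) (hy p q)
  | hmul x l hx =>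
    rw [prj_ioC_mul]
    refine add_mem ?_ ?_
    · split_ifs with h
      · exact zero_mem _
      · exact Ty_congr (Ty_mul (Ty_ioC_10 (idem_apply hP l)) (hx _ _)) (by omega) (by omega)
    · split_ifs with h
      · exact zero_mem _
      · exact Ty_congr (Ty_mul (Ty_ioC_01 (by rw [map_sub, idem_apply hP, sub_self])) (hx _ _))
          (by omega) (by omega)

theorem prj_prj (hP : P * P = P) (p q p' q' : ℕ) (a : CF E) :
    prj P p' q' (prj P p q a) = if p = p' ∧ q = q' then prj P p q a else 0 :=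
  prj_of_mem (prj_mem hP p q a) p' q'

theorem mem_Ty_iff (hP : P * P = P) : a ∈ Ty P p q ↔ prj P p q a = a :=
  ⟨prj_self, fun h => h ▸ prj_mem hP p q a⟩

/-- scaling the two kinds of covectors -/
theorem mapC_scale (P : Module.End ℂ (W E)) (s t : ℂ) (a : CF E) :
    mapC (s • P + t • (1 - P)) a = (dec P a).coeff.sum fun x c => (s ^ x.1 * t ^ x.2) • c := by
  let g : Multiplicative (ℕ × ℕ) →* CF E :=
    { toFun := fun x => algebraMap ℂ (CF E) (s ^ x.toAdd.1 * t ^ x.toAdd.2)
      map_one' := by simp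
      map_mul' := fun x y => by
        rw [← map_mul]; congr 1
        simp only [toAdd_mul, Prod.fst_add, Prod.snd_add, pow_add]; ring }
  let ε : AddMonoidAlgebra (CF E) (ℕ × ℕ) →ₐ[ℂ] CF E :=
    liftNCAlgHom (AlgHom.id ℂ _) g fun x y =>
      (Algebra.commutes (s ^ y.toAdd.1 * t ^ y.toAdd.2) x).symm
  have hε : ∀ (x : ℕ × ℕ) (c : CF E), ε (single x c) = (s ^ x.1 * t ^ x.2) • c := by
    intro x c
    change liftNC _ g (single x c) = _
    rw [liftNC_single, Algebra.smul_def, Algebra.commutes]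
    rfl
  have h1 : mapC (s • P + t • (1 - P)) = ε.comp (dec P) := algHom_extC fun l => by
    rw [AlgHom.comp_apply, dec_ioC, map_add, hε, hε, mapC_ioC]
    simp
  rw [h1, AlgHom.comp_apply]
  conv_lhs => rw [← sum_coeff_single (dec P a)]
  rw [Finsupp.sum, map_sum]
  exact Finset.sum_congr rfl fun x _ => hε _ _

theorem mapC_scale_of_mem (h : a ∈ Ty P p q) (s t : ℂ) :
    mapC (s • P + t • (1 - P)) a = (s ^ p * t ^ q) • a := by
  rw [mapC_scale, mem_Ty.1 h, coeff_single, Finsupp.sum_single_index (by simp)]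

theorem mapC_scale_sum (s t : ℂ) {S : Finset (ℕ × ℕ)} (hS : ∀ x ∉ S, prj P x.1 x.2 a = 0) :
    mapC (s • P + t • (1 - P)) a = ∑ x ∈ S, (s ^ x.1 * t ^ x.2) • prj P x.1 x.2 a := by
  rw [mapC_scale, Finsupp.sum_of_support_subset _ (s := S) _ _ (by simp)]
  · rfl
  · intro x hx
    by_contra h
    exact (Finsupp.mem_support_iff.1 hx) (hS x h)

/-- a form is the sum of its components -/
theorem sum_prj {S : Finset (ℕ × ℕ)} (hS : ∀ x ∉ S, prj P x.1 x.2 a = 0) :
    ∑ x ∈ S, prj P x.1 x.2 a = a := by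
  have := mapC_scale_sum (P := P) 1 1 hS
  simp only [one_smul, one_pow, mul_one, add_sub_cancel] at this
  rw [← this]
  exact mapC_id a

theorem ext_prj (P : Module.End ℂ (W E)) (h : ∀ p q, prj P p q a = prj P p q b) : a = b := by
  have h0 : ∀ x ∉ (∅ : Finset (ℕ × ℕ)), prj P x.1 x.2 (a - b) = 0 := fun x _ => by
    rw [map_sub, h, sub_self]
  have := sum_prj h0
  rw [Finset.sum_empty] at this
  exact sub_eq_zero.1 this.symm

/-- induction on homogeneous forms -/
theorem ind_Ty (hP : P * P = P) {C : CF E → Prop} (h0 : C 0) (hadd : ∀ x y, C x → C y → C (x + y))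
    (h : ∀ p q, ∀ a ∈ Ty P p q, C a) (a : CF E) : C a := by
  rw [← sum_prj (P := P) (a := a) (S := (dec P a).coeff.support)
    fun x hx => Finsupp.notMem_support_iff.1 hx]
  exact Finset.sum_induction _ C hadd h0 fun x _ => h _ _ _ (prj_mem hP _ _ _)

theorem invC_of_mem (h : a ∈ Ty P p q) : invC a = (-1 : ℂ) ^ (p + q) • a := by
  rw [pow_add, ← mapC_scale_of_mem h, invC_eq_mapC]
  congr 2
  ext l v; simp; ring

theorem invC_of_mem_even (h : a ∈ Ty P p q) (he : Even (p + q)) : invC a = a := by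
  rw [invC_of_mem h, he.neg_one_pow, one_smul]

theorem invC_of_mem_odd (h : a ∈ Ty P p q) (he : Odd (p + q)) : invC a = -a := by
  rw [invC_of_mem h, he.neg_one_pow, neg_smul, one_smul]

/-- naturality -/
theorem prj_mapC {Q : Module.End ℂ (W F)} {M : W F →ₗ[ℂ] W E} (h : ∀ l, P (M l) = M (Q l))
    (p q : ℕ) (c : CF F) : prj P p q (mapC M c) = mapC M (prj Q p q c) := by
  induction c using indC generalizing p q with
  | h0 z => rw [AlgHom.commutes, prj_algebraMap, prj_algebraMap]; split_ifs <;> simp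
  | hadd x y hx hy => simp only [map_add, hx, hy]
  | hmul x l hx =>
    rw [map_mul, mapC_ioC, prj_ioC_mul, prj_ioC_mul, map_add, hx, hx]
    congr 1 <;> split_ifs <;> simp [h]

theorem Ty_mapC {Q : Module.End ℂ (W F)} {M : W F →ₗ[ℂ] W E} (h : ∀ l, P (M l) = M (Q l))
    {c : CF F} (hc : c ∈ Ty Q p q) : mapC M c ∈ Ty P p q := by
  rw [mem_Ty]
  ext x : 2
  rw [coeff_single, Finsupp.single_apply, ← prj_def P x.1 x.2, prj_mapC h, prj_of_mem hc]
  simp only [Prod.ext_iff]
  split_ifs <;> simp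

theorem prj_invC (P : Module.End ℂ (W E)) (p q : ℕ) (c : CF E) :
    prj P p q (invC c) = invC (prj P p q c) := by
  rw [invC_eq_mapC, invC_eq_mapC]
  exact prj_mapC (fun l => by simp) p q c

theorem Ty_invC (h : a ∈ Ty P p q) : invC a ∈ Ty P p q := by
  rw [invC_of_mem h]; exact Submodule.smul_mem _ _ h

theorem prj_swap (P : Module.End ℂ (W E)) (p q : ℕ) (c : CF E) :
    prj (1 - P) p q c = prj P q p c := by
  induction c using indC generalizing p q with
  | h0 z => rw [prj_algebraMap, prj_algebraMap]; simp only [and_comm]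
  | hadd x y hx hy => simp only [map_add, hx, hy]
  | hmul x l hx =>
    rw [prj_ioC_mul, prj_ioC_mul, hx, hx, add_comm]
    simp

theorem conj_prj (P : Module.End ℂ (W E)) (p q : ℕ) (c : CF E) :
    Cx.conj (prj P p q c) = prj (cjM P) p q (Cx.conj c) := by
  induction c using indC generalizing p q with
  | h0 z =>
    rw [conj_algebraMap, prj_algebraMap, prj_algebraMap]
    split_ifs
    · exact conj_algebraMap z
    · exact map_zero _
  | hadd x y hx hy => simp only [map_add, hx, hy]
  | hmul x l hx =>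
    rw [map_mul Cx.conj, conj_ioC, prj_ioC_mul, prj_ioC_mul, map_add]
    congr 1 <;> split_ifs <;> simp [hx, conj_ioC, cjM_apply, cjW_sub]

/-- contraction with a complex vector killing the covectors of bidegree `(0,1)` -/
theorem prj_ctr_10 {φ : Module.Dual ℂ (W E)} (h : ∀ l, φ (P l) = φ l) (p q : ℕ)
    (c : CF E) : prj P p q (ctr φ c) = ctr φ (prj P (p + 1) q c) := by
  induction c using indC generalizing p q with
  | h0 z => rw [ctr_algebraMap, prj_algebraMap, map_zero, if_neg (by omega), map_zero]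
  | hadd x y hx hy => simp only [map_add, hx, hy]
  | hmul x l hx =>
    rw [ctr_ioC_mul, map_sub, map_smul, prj_ioC_mul, prj_ioC_mul, map_add, if_neg (Nat.succ_ne_zero p),
      Nat.add_sub_cancel, ctr_ioC_mul, h, hx, hx]
    have e1 : (if p = 0 then 0 else ioC (P l) * ctr φ (prj P (p - 1 + 1) q x))
        = ioC (P l) * ctr φ (prj P p q x) := by
      split_ifs with h0
      · subst h0
        have : ∀ (q : ℕ) (y : CF E), ctr φ (prj P 0 q y) = 0 := by
          intro q y
          induction y using indC generalizing q with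
          | h0 z => rw [prj_algebraMap]; split_ifs <;> simp
          | hadd x y hx hy => simp only [map_add, hx, hy, add_zero]
          | hmul x l hx =>
            rw [prj_ioC_mul, if_pos rfl, zero_add]
            split_ifs
            · exact map_zero _
            · rw [ctr_ioC_mul, hx, map_sub, h, sub_self, zero_smul, mul_zero, sub_zero]
        rw [this, mul_zero]
      · rw [Nat.sub_add_cancel (by omega)]
    rw [e1]
    split_ifs with h0
    · simp
    · rw [ctr_ioC_mul, map_sub φ, h, sub_self, zero_smul]; abel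

theorem prj_ctr_01 {φ : Module.Dual ℂ (W E)} (h : ∀ l, φ (P l) = 0) (p q : ℕ)
    (c : CF E) : prj P p q (ctr φ c) = ctr φ (prj P p (q + 1) c) := by
  rw [← prj_swap, ← prj_swap P]
  exact prj_ctr_10 (fun l => by simp [h]) q p c

theorem mem_Ty_of_prj (h : ∀ p' q', ¬ (p = p' ∧ q = q') → prj P p' q' a = 0) (hP : P * P = P) :
    a ∈ Ty P p q := by
  rw [mem_Ty_iff hP]
  have := sum_prj (P := P) (a := a) (S := {(p, q)}) fun x hx => h _ _ fun e => hx (by
    rw [Finset.mem_singleton]; exact Prod.ext e.1.symm e.2.symm)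
  rwa [Finset.sum_singleton] at this

theorem Ty_ctr_10 {φ : Module.Dual ℂ (W E)} (hP : P * P = P) (h : ∀ l, φ (P l) = φ l)
    (ha : a ∈ Ty P (p + 1) q) : ctr φ a ∈ Ty P p q := by
  rw [mem_Ty_iff hP, prj_ctr_10 h, prj_self ha]

theorem Ty_ctr_01 {φ : Module.Dual ℂ (W E)} (hP : P * P = P) (h : ∀ l, φ (P l) = 0)
    (ha : a ∈ Ty P p (q + 1)) : ctr φ a ∈ Ty P p q := by
  rw [mem_Ty_iff hP, prj_ctr_01 h, prj_self ha]

theorem ctr_10_of_mem {φ : Module.Dual ℂ (W E)} (h : ∀ l, φ (P l) = φ l)
    (ha : a ∈ Ty P 0 q) : ctr φ a = 0 :=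
  ext_prj P fun p' q' => by rw [prj_ctr_10 h, prj_ne ha (by omega), map_zero, map_zero]

theorem ctr_01_of_mem {φ : Module.Dual ℂ (W E)} (h : ∀ l, φ (P l) = 0)
    (ha : a ∈ Ty P p 0) : ctr φ a = 0 :=
  ext_prj P fun p' q' => by rw [prj_ctr_01 h, prj_ne ha (by omega), map_zero, map_zero]

theorem prj_zero_zero (P : Module.End ℂ (W E)) (a : CF E) :
    ∃ z : ℂ, prj P 0 0 a = algebraMap ℂ (CF E) z := by
  induction a using indC with
  | h0 z => exact ⟨z, by rw [prj_algebraMap, if_pos ⟨rfl, rfl⟩]⟩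
  | hadd x y hx hy =>
    obtain ⟨z, hz⟩ := hx
    obtain ⟨w, hw⟩ := hy
    exact ⟨z + w, by rw [map_add, map_add, hz, hw]⟩
  | hmul x l _ => exact ⟨0, by rw [prj_ioC_mul, if_pos rfl, if_pos rfl, add_zero, map_zero]⟩

theorem mem_Ty_zero : a ∈ Ty P 0 0 ↔ ∃ z : ℂ, a = algebraMap ℂ (CF E) z :=
  ⟨fun h => by rw [← prj_self h]; exact prj_zero_zero P a,
    fun ⟨z, hz⟩ => hz ▸ Ty_algebraMap P z⟩

/-! ### vanishing above the rank -/

theorem pow_map_ioC_eq_bot (A : Submodule ℂ (W E)) [FiniteDimensional ℂ A] {k : ℕ}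
    (hk : finrank ℂ A < k) : (A.map ioC) ^ k = ⊥ := by
  let φ : ExteriorAlgebra ℂ A →ₐ[ℂ] CF E := ExteriorAlgebra.lift ℂ ⟨ioC ∘ₗ A.subtype, fun l => ioC_sq _⟩
  have h1 : A.map ioC = (LinearMap.range (ExteriorAlgebra.ι ℂ (M := A))).map φ.toLinearMap := by
    rw [← LinearMap.range_comp]
    have : φ.toLinearMap ∘ₗ ExteriorAlgebra.ι ℂ = ioC ∘ₗ A.subtype :=
      ExteriorAlgebra.ι_comp_lift ℂ _ _
    rw [this, LinearMap.range_comp, Submodule.range_subtype]
  have h2 : (⋀[ℂ]^k A : Submodule ℂ (ExteriorAlgebra ℂ A)) = ⊥ := by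
    rw [← Submodule.finrank_eq_zero, exteriorPower.finrank_eq, Nat.choose_eq_zero_of_lt hk]
  rw [h1, ← Submodule.map_pow]
  change Submodule.map φ.toLinearMap (⋀[ℂ]^k A) = ⊥
  rw [h2, Submodule.map_bot]

theorem prj_mem_pow (P : Module.End ℂ (W E)) (p q : ℕ) (a : CF E) :
    prj P p q a ∈ ((LinearMap.range P).map ioC) ^ p * (⊤ : Submodule ℂ (CF E)) := by
  set A := (LinearMap.range P).map ioC with hA
  have par : ∀ k, ∀ u ∈ A ^ k, invC u = (-1 : ℂ) ^ k • u := by
    intro k u hu
    induction hu using Submodule.pow_induction_on_left' with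
    | algebraMap r => simp
    | add x y i _ _ hx hy => rw [map_add, hx, hy, smul_add]
    | mem_mul m hm i x _ hx =>
      obtain ⟨l, -, rfl⟩ := hm
      rw [map_mul, hx, invC_ioC, pow_succ, mul_smul_comm, neg_mul, mul_neg_one, neg_smul, smul_neg]
  have lm : ∀ k (l : W E), ∀ x ∈ A ^ k * (⊤ : Submodule ℂ (CF E)),
      ioC l * x ∈ A ^ k * (⊤ : Submodule ℂ (CF E)) := by
    intro k l x hx
    refine Submodule.mul_induction_on hx (fun u hu y _ => ?_) fun x y hx hy => ?_
    · rw [← mul_assoc, ioC_mul, par k u hu, mul_assoc, smul_mul_assoc]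
      exact Submodule.smul_mem _ _ (Submodule.mul_mem_mul hu trivial)
    · rw [mul_add]; exact add_mem hx hy
  induction a using indC generalizing p q with
  | h0 z =>
    rw [prj_algebraMap]
    split_ifs with h
    · rw [h.1, pow_zero, one_mul]; trivial
    · exact zero_mem _
  | hadd x y hx hy => rw [map_add]; exact add_mem (hx p q) (hy p q)
  | hmul x l hx =>
    rw [prj_ioC_mul]
    refine add_mem ?_ ?_
    · split_ifs with h
      · exact zero_mem _
      · obtain ⟨p, rfl⟩ := Nat.exists_eq_succ_of_ne_zero h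
        rw [pow_succ', mul_assoc]
        exact Submodule.mul_mem_mul ⟨P l, ⟨l, rfl⟩, rfl⟩ (hx _ _)
    · split_ifs with h
      · exact zero_mem _
      · exact lm _ _ _ (hx _ _)

variable [FiniteDimensional ℝ E]

instance : FiniteDimensional ℂ (W E) := Module.Finite.of_restrictScalars_finite ℝ ℂ (W E)

theorem prj_eq_zero_left (h : finrank ℂ (LinearMap.range P) < p) (q : ℕ) (a : CF E) :
    prj P p q a = 0 := by
  have := prj_mem_pow P p q a
  rwa [pow_map_ioC_eq_bot _ h, Submodule.bot_mul, Submodule.mem_bot] at this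

theorem prj_eq_zero_right (h : finrank ℂ (LinearMap.range (1 - P)) < q) (p : ℕ) (a : CF E) :
    prj P p q a = 0 := by
  rw [← prj_swap]; exact prj_eq_zero_left h p a

theorem finrank_W : finrank ℂ (W E) = finrank ℝ E := by
  have h1 : finrank ℝ (W E) = finrank ℝ E * 2 := by
    rw [Module.finrank_linearMap, Complex.finrank_real_complex]
  have h2 := Module.finrank_mul_finrank ℝ ℂ (W E)
  rw [Complex.finrank_real_complex] at h2
  omega

variable (E) in
/-- a box containing all bidegrees that occur -/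
def box : Finset (ℕ × ℕ) := Finset.range (finrank ℝ E + 1) ×ˢ Finset.range (finrank ℝ E + 1)

theorem prj_box {x : ℕ × ℕ} (hx : x ∉ box E) (a : CF E) : prj P x.1 x.2 a = 0 := by
  simp only [box, Finset.mem_product, Finset.mem_range, not_and_or, not_lt] at hx
  rcases hx with h | h
  · refine prj_eq_zero_left (lt_of_le_of_lt (Submodule.finrank_le _) ?_) _ _
    rw [finrank_W]; omega
  · refine prj_eq_zero_right (lt_of_le_of_lt (Submodule.finrank_le _) ?_) _ _
    rw [finrank_W]; omega

theorem sum_prj_box (P : Module.End ℂ (W E)) (a : CF E) : ∑ x ∈ box E, prj P x.1 x.2 a = a :=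
  sum_prj fun _ hx => prj_box hx a

end grd

end Crest.Agent.X262.Frm
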