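import Crest.Agent.X262.Frm.Typ

/-! Row 262, package Frm (helper58).  Nrm: `CF E` as a finite dimensional normed algebra; the
regularity predicate `CD` is `ContDiffAt`; continuity of the algebraic operations. -/

set_option autoImplicit false
set_option linter.unusedSectionVars false
set_option linter.unusedSimpArgs false

open scoped BigOperators ContDiff Topology
open Module

noncomputable section

namespace Crest.Agent.X262.Frm

open Crest.Agent.R208.F Crest.Agent.R208.CW

section norm
variable (E : Type*) [AddCommGroup E] [Module ℝ E]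

/-- real part, real linear -/
def reLm : CF E →ₗ[ℝ] Ext E := { toFun := Cx.re, map_add' := fun _ _ => rfl, map_smul' := fun _ _ => rfl }
/-- imaginary part, real linear -/
def imLm : CF E →ₗ[ℝ] Ext E := { toFun := Cx.im, map_add' := fun _ _ => rfl, map_smul' := fun _ _ => rfl }
/-- real forms as complex forms, real linear -/
def ofRLm : Ext E →ₗ[ℝ] CF E :=
  { toFun := Cx.ofR, map_add' := fun _ _ => map_add _ _ _, map_smul' := fun r a => ofR_smul r a }
/-- conjugation, real linear -/
def conjLm : CF E →ₗ[ℝ] CF E :=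
  { toFun := Cx.conj, map_add' := fun _ _ => map_add _ _ _, map_smul' := fun r a => conj_rsmul r a }

instance : Nontrivial (CF E) := ⟨0, 1, fun h => zero_ne_one (congrArg Cx.re h)⟩

variable [FiniteDimensional ℝ E]

instance instFinR : FiniteDimensional ℝ (CF E) :=
  Module.Finite.of_injective ((reLm E).prod (imLm E)) fun _ _ h =>
    Cx.ext (congrArg Prod.fst h) (congrArg Prod.snd h)

instance instFinC : FiniteDimensional ℂ (CF E) := Module.Finite.of_restrictScalars_finite ℝ ℂ _

/-- the left regular representation -/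
def rep : CF E →ₐ[ℂ] ((Fin (finrank ℂ (CF E)) → ℂ) →L[ℂ] (Fin (finrank ℂ (CF E)) → ℂ)) :=
  (Module.End.toContinuousLinearMap (Fin (finrank ℂ (CF E)) → ℂ)).toAlgHom.comp
    (((Module.finBasis ℂ (CF E)).equivFun.conjAlgEquiv ℂ).toAlgHom.comp (Algebra.lmul ℂ (CF E)))

theorem rep_injective : Function.Injective (rep E) :=
  (Module.End.toContinuousLinearMap (Fin (finrank ℂ (CF E)) → ℂ)).injective.comp
    (((Module.finBasis ℂ (CF E)).equivFun.conjAlgEquiv ℂ).injective.comp Algebra.lmul_injective)

instance instNormedRing : NormedRing (CF E) := NormedRing.induced _ _ (rep E) (rep_injective E)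

instance instNormedAlgC : NormedAlgebra ℂ (CF E) := NormedAlgebra.induced ℂ _ _ (rep E)

instance (priority := 1100) instNormedAlgR : NormedAlgebra ℝ (CF E) where
  norm_smul_le r a := by
    rw [rsmul_eq]
    simpa using norm_smul_le (r : ℂ) a

instance (priority := 1100) instNormedSpaceR : NormedSpace ℝ (CF E) := NormedAlgebra.toNormedSpace _

instance instNormedSpaceC : NormedSpace ℂ (CF E) := NormedAlgebra.toNormedSpace _

instance : CompleteSpace (CF E) := FiniteDimensional.complete ℂ _

instance : NormOneClass (CF E) := ⟨by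
  have : Nonempty (Fin (finrank ℂ (CF E))) := ⟨⟨0, Module.finrank_pos⟩⟩
  change ‖rep E 1‖ = 1
  rw [map_one, norm_one]⟩

end norm

section clm
variable {E F : Type*} [AddCommGroup E] [Module ℝ E] [FiniteDimensional ℝ E]
  [AddCommGroup F] [Module ℝ F] [FiniteDimensional ℝ F]
  {G H : Type*} [NormedAddCommGroup G] [NormedSpace ℝ G] [NormedAddCommGroup H]

variable (E) in
/-- real part, continuous -/
def reL : CF E →L[ℝ] Ext E := LinearMap.toContinuousLinearMap (reLm E)
variable (E) in
/-- imaginary part, continuous -/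
def imL : CF E →L[ℝ] Ext E := LinearMap.toContinuousLinearMap (imLm E)
variable (E) in
/-- real forms as complex forms, continuous -/
def ofRL : Ext E →L[ℝ] CF E := LinearMap.toContinuousLinearMap (ofRLm E)
variable (E) in
/-- conjugation, continuous -/
def conjL : CF E →L[ℝ] CF E := LinearMap.toContinuousLinearMap (conjLm E)

@[simp] theorem reL_apply (a : CF E) : reL E a = a.re := rfl
@[simp] theorem imL_apply (a : CF E) : imL E a = a.im := rfl
@[simp] theorem ofRL_apply (a : Ext E) : ofRL E a = Cx.ofR a := rfl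
@[simp] theorem conjL_apply (a : CF E) : conjL E a = Cx.conj a := rfl

/-- a complex linear map on forms as a continuous real linear map -/
def cl [NormedSpace ℝ H] [NormedSpace ℂ H] [IsScalarTower ℝ ℂ H] (T : CF E →ₗ[ℂ] H) : CF E →L[ℝ] H :=
  LinearMap.toContinuousLinearMap (T.restrictScalars ℝ)

@[simp] theorem cl_apply [NormedSpace ℝ H] [NormedSpace ℂ H] [IsScalarTower ℝ ℂ H]
    (T : CF E →ₗ[ℂ] H) (a : CF E) : cl T a = T a := rfl

theorem continuous_lin [NormedSpace ℂ H] (T : CF E →ₗ[ℂ] H) : Continuous T :=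
  T.continuous_of_finiteDimensional

variable {k : WithTop ℕ∞} {om : G → CF E} {x : G}

theorem ContDiffAt.lin [NormedSpace ℝ H] [NormedSpace ℂ H] [IsScalarTower ℝ ℂ H]
    (T : CF E →ₗ[ℂ] H) (h : ContDiffAt ℝ k om x) :
    ContDiffAt ℝ k (fun y => T (om y)) x := (cl T).contDiff.contDiffAt.comp x h

theorem DifferentiableAt.lin [NormedSpace ℝ H] [NormedSpace ℂ H] [IsScalarTower ℝ ℂ H]
    (T : CF E →ₗ[ℂ] H) (h : DifferentiableAt ℝ om x) :
    DifferentiableAt ℝ (fun y => T (om y)) x := (cl T).differentiableAt.comp x h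

theorem fderiv_lin [NormedSpace ℝ H] [NormedSpace ℂ H] [IsScalarTower ℝ ℂ H]
    (T : CF E →ₗ[ℂ] H) (h : DifferentiableAt ℝ om x) (v : G) :
    fderiv ℝ (fun y => T (om y)) x v = T (fderiv ℝ om x v) := by
  have h1 : HasFDerivAt (fun y => T (om y)) ((cl T).comp (fderiv ℝ om x)) x :=
    (cl T).hasFDerivAt.comp x h.hasFDerivAt
  rw [h1.fderiv]; rfl

theorem contDiffAt_invC (h : ContDiffAt ℝ k om x) : ContDiffAt ℝ k (fun y => invC (om y)) x :=
  ContDiffAt.lin invA.toLinearMap h

theorem differentiableAt_invC (h : DifferentiableAt ℝ om x) :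
    DifferentiableAt ℝ (fun y => invC (om y)) x := DifferentiableAt.lin invA.toLinearMap h

theorem contDiffAt_conj (h : ContDiffAt ℝ k om x) : ContDiffAt ℝ k (fun y => Cx.conj (om y)) x :=
  (conjL E).contDiff.contDiffAt.comp x h

theorem contDiffAt_algebraMap {g : G → ℂ} (h : ContDiffAt ℝ k g x) :
    ContDiffAt ℝ k (fun y => algebraMap ℂ (CF E) (g y)) x := by
  simp only [Algebra.algebraMap_eq_smul_one]
  exact h.smul contDiffAt_const

end clm

section clc
variable {E F G : Type*} [NormedAddCommGroup E] [NormedSpace ℝ E] [FiniteDimensional ℝ E]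
  [NormedAddCommGroup F] [NormedSpace ℝ F] [FiniteDimensional ℝ F]
  [NormedAddCommGroup G] [NormedSpace ℝ G] {k : WithTop ℕ∞} {om : G → CF E} {x : G}

/-- the regularity predicate of R208 is the usual one -/
theorem cd_iff : CD k om x ↔ ContDiffAt ℝ k om x := by
  refine ⟨fun h => ?_, fun h => ⟨(reL E).contDiff.contDiffAt.comp x h,
    (imL E).contDiff.contDiffAt.comp x h⟩⟩
  have : om = fun y => ofRL E (om y).re + Complex.I • ofRL E (om y).im :=
    funext fun y => eq_re_im (om y)
  rw [this]
  exact ((ofRL E).contDiff.contDiffAt.comp x h.re).add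
    (((ofRL E).contDiff.contDiffAt.comp x h.im).const_smul Complex.I)

alias ⟨CD.contDiffAt, ContDiffAt.cd⟩ := cd_iff

variable (E) in
/-- continuous covectors as forms -/
def ioL : (E →L[ℝ] ℂ) →L[ℝ] CF E :=
  LinearMap.toContinuousLinearMap
    { toFun := fun l => ioC (l : E →ₗ[ℝ] ℂ)
      map_add' := fun l m => by rw [← map_add]; rfl
      map_smul' := fun r l => by
        rw [RingHom.id_apply, rsmul_eq, ← map_smul]; rfl }

@[simp] theorem ioL_apply (l : E →L[ℝ] ℂ) : ioL E l = ioC (l : E →ₗ[ℝ] ℂ) := rfl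

theorem contDiffAt_ioC {l : G → E →L[ℝ] ℂ} (h : ContDiffAt ℝ k l x) :
    ContDiffAt ℝ k (fun y => ioC (l y : E →ₗ[ℝ] ℂ)) x := (ioL E).contDiff.contDiffAt.comp x h

variable (E) in
/-- contraction, continuous bilinear -/
def iiCL : E →L[ℝ] CF E →L[ℝ] CF E :=
  LinearMap.toContinuousLinearMap
    { toFun := fun v => cl (iiC v)
      map_add' := fun v w => by ext c : 1; simp
      map_smul' := fun r v => by ext c : 1; simp }

@[simp] theorem iiCL_apply (v : E) (c : CF E) : iiCL E v c = iiC v c := rfl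

theorem contDiffAt_iiC {v : G → E} (hv : ContDiffAt ℝ k v x) (h : ContDiffAt ℝ k om x) :
    ContDiffAt ℝ k (fun y => iiC (v y) (om y)) x :=
  (iiCL E).isBoundedBilinearMap.contDiff.contDiffAt.comp₂ hv h

theorem continuousAt_iiC {G : Type*} [TopologicalSpace G] {v : G → E} {om : G → CF E} {x : G}
    (hv : ContinuousAt v x) (h : ContinuousAt om x) : ContinuousAt (fun y => iiC (v y) (om y)) x :=
  (((iiCL E).continuous.continuousAt (x := v x)).comp hv).clm_apply h

theorem hasFDerivAt_iiC {v : G → E} {v' : G →L[ℝ] E} {om' : G →L[ℝ] CF E} (hv : HasFDerivAt v v' x)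
    (h : HasFDerivAt om om' x) : HasFDerivAt (fun y => iiC (v y) (om y))
      ((iiCL E).precompR G (v x) om' + (iiCL E).precompL G v' (om x)) x :=
  (iiCL E).hasFDerivAt_of_bilinear hv h

/-- the pull-back as a function of the linear map, with values in continuous linear maps -/
def pbCL (A : E →L[ℝ] F) : CF F →L[ℝ] CF E := cl (pbA (A : E →ₗ[ℝ] F)).toLinearMap

@[simp] theorem pbCL_apply (A : E →L[ℝ] F) (c : CF F) : pbCL A c = pbC (A : E →ₗ[ℝ] F) c := rfl

theorem contDiff_pbCL : ContDiff ℝ k (pbCL : (E →L[ℝ] F) → CF F →L[ℝ] CF E) := by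
  rw [contDiff_clm_apply_iff]
  intro c
  exact contDiff_iff_contDiffAt.2 fun A => cd_iff.1
    ⟨(contDiff_pb_apply c.re).contDiffAt, (contDiff_pb_apply c.im).contDiffAt⟩

theorem contDiffAt_pbC {A : G → E →L[ℝ] F} {c : G → CF F} (hA : ContDiffAt ℝ k A x)
    (hc : ContDiffAt ℝ k c x) : ContDiffAt ℝ k (fun y => pbC (A y : E →ₗ[ℝ] F) (c y)) x :=
  ((contDiff_pbCL (E := E) (F := F)).contDiffAt.comp x hA).clm_apply hc

theorem continuousAt_pbC {G : Type*} [TopologicalSpace G] {A : G → E →L[ℝ] F} {c : G → CF F} {x : G}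
    (hA : ContinuousAt A x) (hc : ContinuousAt c x) :
    ContinuousAt (fun y => pbC (A y : E →ₗ[ℝ] F) (c y)) x :=
  (((contDiff_pbCL (E := E) (F := F) (k := 0)).continuous.continuousAt (x := A x)).comp hA).clm_apply hc

theorem contDiffAt_pullC {m : WithTop ℕ∞} {f : E → F} {om : F → CF F} {x : E}
    (hf : ContDiffAt ℝ k f x) (hm : m + 1 ≤ k) (h : ContDiffAt ℝ m om (f x)) :
    ContDiffAt ℝ m (pullC f om) x := cd_iff.1 ((cd_iff.2 h).pullC hf hm)

theorem contDiffAt_dC {m : WithTop ℕ∞} {om : E → CF E} {x : E} (h : ContDiffAt ℝ k om x)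
    (hm : m + 1 ≤ k) : ContDiffAt ℝ m (dC om) x := cd_iff.1 ((cd_iff.2 h).dC hm)

/-- the exterior derivative in a basis -/
theorem dC_eq_sum {ι : Type*} [Fintype ι] (b : Basis ι ℝ E) {om : E → CF E} {x : E}
    (h : DifferentiableAt ℝ om x) :
    dC om x = ∑ i, ioC (ofD (b.coord i)) * fderiv ℝ om x (b i) := by
  have h1 : HasFDerivAt (fun y => (om y).re) ((reL E).comp (fderiv ℝ om x)) x :=
    (reL E).hasFDerivAt.comp x h.hasFDerivAt
  have h2 : HasFDerivAt (fun y => (om y).im) ((imL E).comp (fderiv ℝ om x)) x :=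
    (imL E).hasFDerivAt.comp x h.hasFDerivAt
  refine Cx.ext ?_ ?_
  · change d (fun y => (om y).re) x = _
    rw [d_of_hasFDerivAt h1, wd_basis b, Cx.sum_re]
    refine Finset.sum_congr rfl fun i _ => ?_
    simp [ioC_ofD]
  · change d (fun y => (om y).im) x = _
    rw [d_of_hasFDerivAt h2, wd_basis b, Cx.sum_im]
    refine Finset.sum_congr rfl fun i _ => ?_
    simp [ioC_ofD]

theorem pullC_mul (f : E → F) (om η : F → CF F) (x : E) :
    pullC f (fun y => om y * η y) x = pullC f om x * pullC f η x := map_mul _ _ _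

theorem pullC_add (f : E → F) (om η : F → CF F) (x : E) :
    pullC f (fun y => om y + η y) x = pullC f om x + pullC f η x := map_add _ _ _

theorem pullC_sub (f : E → F) (om η : F → CF F) (x : E) :
    pullC f (fun y => om y - η y) x = pullC f om x - pullC f η x := map_sub _ _ _

theorem pullC_smul (f : E → F) (g : F → ℂ) (om : F → CF F) (x : E) :
    pullC f (fun y => g y • om y) x = g (f x) • pullC f om x := pbC_smul _ _ _

theorem pullC_sum {ι : Type*} (s : Finset ι) (f : E → F) (om : ι → F → CF F) (x : E) :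
    pullC f (fun y => ∑ i ∈ s, om i y) x = ∑ i ∈ s, pullC f (om i) x := map_sum _ _ _

theorem pullC_algebraMap (f : E → F) (g : F → ℂ) (x : E) :
    pullC f (fun y => algebraMap ℂ (CF F) (g y)) x = algebraMap ℂ (CF E) (g (f x)) :=
  pbC_algebraMap _ _

theorem pullC_invC (f : E → F) (om : F → CF F) (x : E) :
    pullC f (fun y => invC (om y)) x = invC (pullC f om x) := pbC_invC _ _

theorem pullC_congr {f g : E → F} {om η : F → CF F} {x : E} (h : f =ᶠ[𝓝 x] g)
    (h' : om (f x) = η (f x)) : pullC f om x = pullC g η x := by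
  simp only [pullC, ← h.fderiv_eq, ← h.eq_of_nhds, h']

theorem pullC_comp {H : Type*} [NormedAddCommGroup H] [NormedSpace ℝ H] [FiniteDimensional ℝ H]
    {f : E → F} {g : F → H} {om : H → CF H} {x : E} (hf : DifferentiableAt ℝ f x)
    (hg : DifferentiableAt ℝ g (f x)) : pullC f (pullC g om) x = pullC (fun y => g (f y)) om x := by
  simp only [pullC, pbC_pbC, fderiv_fun_comp x hg hf]
  rfl

theorem pullC_id (om : E → CF E) (x : E) : pullC (fun y => y) om x = om x := by
  simp only [pullC, fderiv_fun_id]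
  exact pbC_id' _

theorem dg_pullC (j : ℕ) (f : E → F) (om : F → CF F) (x : E) :
    dg j (pullC f om x) = pullC f (fun y => dg j (om y)) x := dg_pbC _ _ _

end clc

end Crest.Agent.X262.Frm
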